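import Vale.Agent.P183L.Uni.Base
import Vale.Agent.P183L.GSet2
import Vale.Agent.P183L.Uni.TL

/-!
Certificates for individual order tables.
-/

namespace Vale.Agent.P183L.Small

open Vale.Agent.P183

universe u

/-- Operations for the table `u0`. -/
def ops_u0 : List (List ℕ) := [[2, 0, 1]]

/-- Labellings for the table `u0`. -/
def labs_u0 : List (List ℕ) := [[0, 1, 2], [0, 0, 0]]

theorem chk_u0 : checkAll 2 3 (tblB 2 11) ops_u0 labs_u0 17 = true := by
  decide +kernel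

theorem rep_u0 {L : Type u} [Lattice L] [Finite L] (e : L ≃ Fin 2)
    (he : ∀ x y : L, x ≤ y ↔ tblB 2 11 (e x) (e y) = true) : Representable L :=
  representable_of_check (by decide) e he chk_u0

/-- Operations for the table `u1`. -/
def ops_u1 : List (List ℕ) := [[0, 2, 1]]

/-- Labellings for the table `u1`. -/
def labs_u1 : List (List ℕ) := [[0, 1, 2], [0, 1, 1], [0, 0, 0]]

theorem chk_u1 : checkAll 3 3 (tblB 3 311) ops_u1 labs_u1 17 = true := by
  decide +kernel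

theorem rep_u1 {L : Type u} [Lattice L] [Finite L] (e : L ≃ Fin 3)
    (he : ∀ x y : L, x ≤ y ↔ tblB 3 311 (e x) (e y) = true) : Representable L :=
  representable_of_check (by decide) e he chk_u1

/-- Operations for the table `u2`. -/
def ops_u2 : List (List ℕ) := [[0, 1, 1]]

/-- Labellings for the table `u2`. -/
def labs_u2 : List (List ℕ) := [[0, 1, 2], [0, 0, 2], [0, 1, 1], [0, 0, 0]]

theorem chk_u2 : checkAll 4 3 (tblB 4 36015) ops_u2 labs_u2 17 = true := by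
  decide +kernel

theorem rep_u2 {L : Type u} [Lattice L] [Finite L] (e : L ≃ Fin 4)
    (he : ∀ x y : L, x ≤ y ↔ tblB 4 36015 (e x) (e y) = true) : Representable L :=
  representable_of_check (by decide) e he chk_u2

/-- Operations for the table `u3`. -/
def ops_u3 : List (List ℕ) := [[1, 2, 2, 0]]

/-- Labellings for the table `u3`. -/
def labs_u3 : List (List ℕ) := [[0, 1, 2, 3], [0, 1, 1, 3], [0, 0, 0, 3], [0, 0, 0, 0]]

theorem chk_u3 : checkAll 4 4 (tblB 4 36079) ops_u3 labs_u3 20 = true := by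
  decide +kernel

theorem rep_u3 {L : Type u} [Lattice L] [Finite L] (e : L ≃ Fin 4)
    (he : ∀ x y : L, x ≤ y ↔ tblB 4 36079 (e x) (e y) = true) : Representable L :=
  representable_of_check (by decide) e he chk_u3

/-- Operations for the table `u4`. -/
def ops_u4 : List (List ℕ) := [[0, 1, 2]]

/-- Labellings for the table `u4`. -/
def labs_u4 : List (List ℕ) := [[0, 1, 2], [0, 0, 2], [0, 1, 0], [0, 1, 1], [0, 0, 0]]

theorem chk_u4 : checkAll 5 3 (tblB 5 17584735) ops_u4 labs_u4 17 = true := by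
  decide +kernel

theorem rep_u4 {L : Type u} [Lattice L] [Finite L] (e : L ≃ Fin 5)
    (he : ∀ x y : L, x ≤ y ↔ tblB 5 17584735 (e x) (e y) = true) : Representable L :=
  representable_of_check (by decide) e he chk_u4

/-- Operations for the table `u5`. -/
def ops_u5 : List (List ℕ) := [[3, 2, 1, 0], [2, 1, 2, 1]]

/-- Labellings for the table `u5`. -/
def labs_u5 : List (List ℕ) := [[0, 1, 2, 3], [0, 1, 0, 1], [0, 1, 1, 3], [0, 1, 1, 0], [0, 0, 0, 0]]

theorem chk_u5 : checkAll 5 4 (tblB 5 17592927) ops_u5 labs_u5 24 = true := by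
  decide +kernel

theorem rep_u5 {L : Type u} [Lattice L] [Finite L] (e : L ≃ Fin 5)
    (he : ∀ x y : L, x ≤ y ↔ tblB 5 17592927 (e x) (e y) = true) : Representable L :=
  representable_of_check (by decide) e he chk_u5

/-- Operations for the table `u6`. -/
def ops_u6 : List (List ℕ) := [[0, 1, 1, 3], [3, 2, 1, 0]]

/-- Labellings for the table `u6`. -/
def labs_u6 : List (List ℕ) := [[0, 1, 2, 3], [0, 1, 1, 3], [0, 1, 2, 0], [0, 1, 1, 0], [0, 0, 0, 0]]

theorem chk_u6 : checkAll 5 4 (tblB 5 17593183) ops_u6 labs_u6 24 = true := by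
  decide +kernel

theorem rep_u6 {L : Type u} [Lattice L] [Finite L] (e : L ≃ Fin 5)
    (he : ∀ x y : L, x ≤ y ↔ tblB 5 17593183 (e x) (e y) = true) : Representable L :=
  representable_of_check (by decide) e he chk_u6

/-- Operations for the table `u7`. -/
def ops_u7 : List (List ℕ) := [[2, 0, 2, 0], [0, 0, 0, 3]]

/-- Labellings for the table `u7`. -/
def labs_u7 : List (List ℕ) := [[0, 1, 2, 3], [0, 1, 0, 3], [0, 1, 0, 0], [0, 0, 0, 3], [0, 0, 0, 0]]

theorem chk_u7 : checkAll 5 4 (tblB 5 17585119) ops_u7 labs_u7 24 = true := by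
  decide +kernel

theorem rep_u7 {L : Type u} [Lattice L] [Finite L] (e : L ≃ Fin 5)
    (he : ∀ x y : L, x ≤ y ↔ tblB 5 17585119 (e x) (e y) = true) : Representable L :=
  representable_of_check (by decide) e he chk_u7

/-- Operations for the table `u8`. -/
def ops_u8 : List (List ℕ) := [[0, 2, 0, 1, 3]]

/-- Labellings for the table `u8`. -/
def labs_u8 : List (List ℕ) := [[0, 1, 2, 3, 4], [0, 1, 0, 3, 4], [0, 0, 0, 3, 4], [0, 0, 0, 0, 4], [0, 0, 0, 0, 0]]

theorem chk_u8 : checkAll 5 5 (tblB 5 17593311) ops_u8 labs_u8 23 = true := by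
  decide +kernel

theorem rep_u8 {L : Type u} [Lattice L] [Finite L] (e : L ≃ Fin 5)
    (he : ∀ x y : L, x ≤ y ↔ tblB 5 17593311 (e x) (e y) = true) : Representable L :=
  representable_of_check (by decide) e he chk_u8

/-- Operations for the table `u9`. -/
def ops_u9 : List (List ℕ) := [[1, 1, 3, 3], [1, 0, 3, 2]]

/-- Labellings for the table `u9`. -/
def labs_u9 : List (List ℕ) := [[0, 1, 2, 3], [0, 1, 0, 1], [0, 1, 2, 2], [0, 0, 2, 3], [0, 0, 2, 2], [0, 0, 0, 0]]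

theorem chk_u9 : checkAll 6 4 (tblB 6 35179940031) ops_u9 labs_u9 24 = true := by
  decide +kernel

theorem rep_u9 {L : Type u} [Lattice L] [Finite L] (e : L ≃ Fin 6)
    (he : ∀ x y : L, x ≤ y ↔ tblB 6 35179940031 (e x) (e y) = true) : Representable L :=
  representable_of_check (by decide) e he chk_u9

/-- Operations for the table `u10`. -/
def ops_u10 : List (List ℕ) := [[1, 1, 1, 2], [1, 1, 1, 0]]

/-- Labellings for the table `u10`. -/
def labs_u10 : List (List ℕ) := [[0, 1, 2, 3], [0, 1, 0, 3], [0, 0, 2, 3], [0, 1, 1, 3], [0, 0, 0, 3], [0, 0, 0, 0]]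

theorem chk_u10 : checkAll 6 4 (tblB 6 35179941055) ops_u10 labs_u10 24 = true := by
  decide +kernel

theorem rep_u10 {L : Type u} [Lattice L] [Finite L] (e : L ≃ Fin 6)
    (he : ∀ x y : L, x ≤ y ↔ tblB 6 35179941055 (e x) (e y) = true) : Representable L :=
  representable_of_check (by decide) e he chk_u10

/-- Operations for the table `u11`. -/
def ops_u11 : List (List ℕ) := [[0, 0, 1, 3]]

/-- Labellings for the table `u11`. -/
def labs_u11 : List (List ℕ) := [[0, 1, 2, 3], [0, 1, 2, 0], [0, 0, 2, 3], [0, 0, 0, 3], [0, 0, 2, 0], [0, 0, 0, 0]]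

theorem chk_u11 : checkAll 6 4 (tblB 6 35175779519) ops_u11 labs_u11 20 = true := by
  decide +kernel

theorem rep_u11 {L : Type u} [Lattice L] [Finite L] (e : L ≃ Fin 6)
    (he : ∀ x y : L, x ≤ y ↔ tblB 6 35175779519 (e x) (e y) = true) : Representable L :=
  representable_of_check (by decide) e he chk_u11

/-- Operations for the table `u12`. -/
def ops_u12 : List (List ℕ) := [[1, 0, 2, 3], [0, 0, 1, 0]]

/-- Labellings for the table `u12`. -/
def labs_u12 : List (List ℕ) := [[0, 1, 2, 3], [0, 0, 2, 3], [0, 0, 0, 3], [0, 0, 2, 0], [0, 0, 2, 2], [0, 0, 0, 0]]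

theorem chk_u12 : checkAll 6 4 (tblB 6 35175681983) ops_u12 labs_u12 24 = true := by
  decide +kernel

theorem rep_u12 {L : Type u} [Lattice L] [Finite L] (e : L ≃ Fin 6)
    (he : ∀ x y : L, x ≤ y ↔ tblB 6 35175681983 (e x) (e y) = true) : Representable L :=
  representable_of_check (by decide) e he chk_u12

/-- Operations for the table `u13`. -/
def ops_u13 : List (List ℕ) := [[3, 3, 0, 0, 1], [3, 2, 1, 0, 4]]

/-- Labellings for the table `u13`. -/
def labs_u13 : List (List ℕ) := [[0, 1, 2, 3, 4], [0, 0, 2, 2, 4], [0, 1, 2, 0, 4], [0, 1, 1, 0, 4], [0, 0, 0, 0, 4], [0, 0, 0, 0, 0]]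

theorem chk_u13 : checkAll 6 5 (tblB 6 35179973823) ops_u13 labs_u13 28 = true := by
  decide +kernel

theorem rep_u13 {L : Type u} [Lattice L] [Finite L] (e : L ≃ Fin 6)
    (he : ∀ x y : L, x ≤ y ↔ tblB 6 35179973823 (e x) (e y) = true) : Representable L :=
  representable_of_check (by decide) e he chk_u13

/-- Operations for the table `u14`. -/
def ops_u14 : List (List ℕ) := [[4, 3, 3, 3, 1], [0, 2, 2, 3, 4]]

/-- Labellings for the table `u14`. -/
def labs_u14 : List (List ℕ) := [[0, 1, 2, 3, 4], [0, 1, 2, 2, 4], [0, 1, 1, 3, 4], [0, 1, 1, 1, 4], [0, 1, 1, 1, 1], [0, 0, 0, 0, 0]]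

theorem chk_u14 : checkAll 6 5 (tblB 6 35179974335) ops_u14 labs_u14 28 = true := by
  decide +kernel

theorem rep_u14 {L : Type u} [Lattice L] [Finite L] (e : L ≃ Fin 6)
    (he : ∀ x y : L, x ≤ y ↔ tblB 6 35179974335 (e x) (e y) = true) : Representable L :=
  representable_of_check (by decide) e he chk_u14

/-- Operations for the table `u15`. -/
def ops_u15 : List (List ℕ) := [[2, 4, 0, 4, 3], [0, 2, 2, 2, 0], [3, 3, 1, 1, 1]]

/-- Labellings for the table `u15`. -/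
def labs_u15 : List (List ℕ) := [[0, 1, 2, 3, 4], [0, 1, 2, 1, 4], [0, 1, 1, 1, 0], [0, 1, 0, 1, 4], [0, 1, 0, 1, 1], [0, 0, 0, 0, 0]]

theorem chk_u15 : checkAll 6 5 (tblB 6 35179876287) ops_u15 labs_u15 33 = true := by
  decide +kernel

theorem rep_u15 {L : Type u} [Lattice L] [Finite L] (e : L ≃ Fin 6)
    (he : ∀ x y : L, x ≤ y ↔ tblB 6 35179876287 (e x) (e y) = true) : Representable L :=
  representable_of_check (by decide) e he chk_u15

/-- Operations for the table `u16`. -/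
def ops_u16 : List (List ℕ) := [[0, 4, 2, 1, 2], [0, 2, 4, 0, 4]]

/-- Labellings for the table `u16`. -/
def labs_u16 : List (List ℕ) := [[0, 1, 2, 3, 4], [0, 1, 2, 3, 2], [0, 1, 1, 3, 1], [0, 1, 0, 3, 0], [0, 0, 0, 3, 0], [0, 0, 0, 0, 0]]

theorem chk_u16 : checkAll 6 5 (tblB 6 35179941823) ops_u16 labs_u16 28 = true := by
  decide +kernel

theorem rep_u16 {L : Type u} [Lattice L] [Finite L] (e : L ≃ Fin 6)
    (he : ∀ x y : L, x ≤ y ↔ tblB 6 35179941823 (e x) (e y) = true) : Representable L :=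
  representable_of_check (by decide) e he chk_u16

/-- Operations for the table `u17`. -/
def ops_u17 : List (List ℕ) := [[2, 0, 0, 2, 1], [4, 1, 2, 3, 0]]

/-- Labellings for the table `u17`. -/
def labs_u17 : List (List ℕ) := [[0, 1, 2, 3, 4], [0, 1, 1, 3, 4], [0, 1, 1, 3, 0], [0, 0, 0, 3, 0], [0, 1, 1, 0, 0], [0, 0, 0, 0, 0]]

theorem chk_u17 : checkAll 6 5 (tblB 6 35175780287) ops_u17 labs_u17 28 = true := by
  decide +kernel

theorem rep_u17 {L : Type u} [Lattice L] [Finite L] (e : L ≃ Fin 6)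
    (he : ∀ x y : L, x ≤ y ↔ tblB 6 35175780287 (e x) (e y) = true) : Representable L :=
  representable_of_check (by decide) e he chk_u17

/-- Operations for the table `u18`. -/
def ops_u18 : List (List ℕ) := [[5, 3, 4, 1, 2, 0], [2, 4, 0, 5, 1, 3]]

/-- Labellings for the table `u18`. -/
def labs_u18 : List (List ℕ) := [[0, 1, 2, 3, 4, 5], [0, 1, 1, 0, 0, 1], [0, 1, 0, 1, 4, 4], [0, 1, 2, 2, 1, 0], [0, 0, 2, 3, 2, 3], [0, 0, 0, 0, 0, 0]]

theorem chk_u18 : checkAll 6 6 (tblB 6 35175680191) ops_u18 labs_u18 32 = true := by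
  decide +kernel

theorem rep_u18 {L : Type u} [Lattice L] [Finite L] (e : L ≃ Fin 6)
    (he : ∀ x y : L, x ≤ y ↔ tblB 6 35175680191 (e x) (e y) = true) : Representable L :=
  representable_of_check (by decide) e he chk_u18

/-- Operations for the table `u19`. -/
def ops_u19 : List (List ℕ) := [[1, 1, 3, 1, 3, 1], [5, 3, 2, 3, 4, 5], [0, 1, 1, 1, 0, 0], [0, 1, 3, 2, 5, 4]]

/-- Labellings for the table `u19`. -/
def labs_u19 : List (List ℕ) := [[0, 1, 2, 3, 4, 5], [0, 0, 2, 3, 2, 3], [0, 1, 1, 1, 4, 5], [0, 1, 1, 1, 4, 4], [0, 1, 1, 1, 0, 0], [0, 0, 0, 0, 0, 0]]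

theorem chk_u19 : checkAll 6 6 (tblB 6 35179972799) ops_u19 labs_u19 44 = true := by
  decide +kernel

theorem rep_u19 {L : Type u} [Lattice L] [Finite L] (e : L ≃ Fin 6)
    (he : ∀ x y : L, x ≤ y ↔ tblB 6 35179972799 (e x) (e y) = true) : Representable L :=
  representable_of_check (by decide) e he chk_u19

/-- Operations for the table `u20`. -/
def ops_u20 : List (List ℕ) := [[1, 4, 5, 3, 2, 3]]

/-- Labellings for the table `u20`. -/
def labs_u20 : List (List ℕ) := [[0, 1, 2, 3, 4, 5], [0, 1, 2, 3, 4, 3], [0, 1, 2, 2, 4, 2], [0, 1, 2, 2, 2, 2], [0, 1, 1, 1, 1, 1], [0, 0, 0, 0, 0, 0]]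

theorem chk_u20 : checkAll 6 6 (tblB 6 35179974591) ops_u20 labs_u20 26 = true := by
  decide +kernel

theorem rep_u20 {L : Type u} [Lattice L] [Finite L] (e : L ≃ Fin 6)
    (he : ∀ x y : L, x ≤ y ↔ tblB 6 35179974591 (e x) (e y) = true) : Representable L :=
  representable_of_check (by decide) e he chk_u20

/-- Operations for the table `u21`. -/
def ops_u21 : List (List ℕ) := [[6, 5, 5, 0, 5, 6, 6], [2, 1, 2, 2, 4, 4, 1], [3, 6, 3, 3, 4, 4, 6]]

/-- Labellings for the table `u21`. -/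
def labs_u21 : List (List ℕ) := [[0, 1, 2, 3, 4, 5, 6], [0, 1, 2, 2, 2, 0, 6], [0, 1, 1, 0, 4, 5, 0], [0, 1, 2, 3, 1, 1, 1], [0, 1, 0, 3, 1, 1, 1], [0, 0, 0, 0, 0, 0, 0]]

theorem chk_u21 : checkAll 6 7 (tblB 6 35179874495) ops_u21 labs_u21 43 = true := by
  decide +kernel

theorem rep_u21 {L : Type u} [Lattice L] [Finite L] (e : L ≃ Fin 6)
    (he : ∀ x y : L, x ≤ y ↔ tblB 6 35179874495 (e x) (e y) = true) : Representable L :=
  representable_of_check (by decide) e he chk_u21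

/-- Operations for the table `u22`. -/
def ops_u22 : List (List ℕ) := [[4, 1, 1, 1, 5, 4, 4], [2, 6, 0, 6, 3, 3, 3], [5, 6, 5, 0, 3, 6, 0]]

/-- Labellings for the table `u22`. -/
def labs_u22 : List (List ℕ) := [[0, 1, 2, 3, 4, 5, 6], [0, 1, 2, 3, 1, 1, 3], [0, 1, 2, 2, 4, 0, 0], [0, 1, 1, 1, 4, 0, 0], [0, 1, 0, 3, 1, 1, 3], [0, 0, 0, 0, 0, 0, 0]]

theorem chk_u22 : checkAll 6 7 (tblB 6 35175713983) ops_u22 labs_u22 43 = true := by
  decide +kernel

theorem rep_u22 {L : Type u} [Lattice L] [Finite L] (e : L ≃ Fin 6)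
    (he : ∀ x y : L, x ≤ y ↔ tblB 6 35175713983 (e x) (e y) = true) : Representable L :=
  representable_of_check (by decide) e he chk_u22

/-- Operations for the table `u23`. -/
def ops_u23 : List (List ℕ) := [[2, 3, 0, 1]]

/-- Labellings for the table `u23`. -/
def labs_u23 : List (List ℕ) := [[0, 1, 2, 3], [0, 1, 1, 0], [0, 0, 2, 2], [0, 1, 2, 1], [0, 1, 0, 3], [0, 1, 0, 1], [0, 0, 0, 0]]

theorem chk_u23 : checkAll 7 4 (tblB 7 284803795591551) ops_u23 labs_u23 20 = true := by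
  decide +kernel

theorem rep_u23 {L : Type u} [Lattice L] [Finite L] (e : L ≃ Fin 7)
    (he : ∀ x y : L, x ≤ y ↔ tblB 7 284803795591551 (e x) (e y) = true) : Representable L :=
  representable_of_check (by decide) e he chk_u23

/-- Operations for the table `u24`. -/
def ops_u24 : List (List ℕ) := [[0, 1, 0, 3], [1, 1, 2, 1]]

/-- Labellings for the table `u24`. -/
def labs_u24 : List (List ℕ) := [[0, 1, 2, 3], [0, 1, 2, 1], [0, 1, 2, 0], [0, 0, 2, 3], [0, 0, 0, 3], [0, 0, 2, 0], [0, 0, 0, 0]]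

theorem chk_u24 : checkAll 7 4 (tblB 7 284795239739775) ops_u24 labs_u24 24 = true := by
  decide +kernel

theorem rep_u24 {L : Type u} [Lattice L] [Finite L] (e : L ≃ Fin 7)
    (he : ∀ x y : L, x ≤ y ↔ tblB 7 284795239739775 (e x) (e y) = true) : Representable L :=
  representable_of_check (by decide) e he chk_u24

/-- Operations for the table `u25`. -/
def ops_u25 : List (List ℕ) := [[1, 0, 2, 3]]

/-- Labellings for the table `u25`. -/
def labs_u25 : List (List ℕ) := [[0, 1, 2, 3], [0, 1, 2, 2], [0, 0, 2, 3], [0, 0, 0, 3], [0, 0, 2, 0], [0, 0, 2, 2], [0, 0, 0, 0]]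

theorem chk_u25 : checkAll 7 4 (tblB 7 284795139469695) ops_u25 labs_u25 20 = true := by
  decide +kernel

theorem rep_u25 {L : Type u} [Lattice L] [Finite L] (e : L ≃ Fin 7)
    (he : ∀ x y : L, x ≤ y ↔ tblB 7 284795139469695 (e x) (e y) = true) : Representable L :=
  representable_of_check (by decide) e he chk_u25

/-- Operations for the table `u26`. -/
def ops_u26 : List (List ℕ) := [[3, 3, 0, 0], [3, 2, 2, 3]]

/-- Labellings for the table `u26`. -/
def labs_u26 : List (List ℕ) := [[0, 1, 2, 3], [0, 1, 2, 2], [0, 1, 2, 0], [0, 1, 1, 0], [0, 0, 2, 2], [0, 1, 0, 0], [0, 0, 0, 0]]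

theorem chk_u26 : checkAll 7 4 (tblB 7 284795139209599) ops_u26 labs_u26 24 = true := by
  decide +kernel

theorem rep_u26 {L : Type u} [Lattice L] [Finite L] (e : L ≃ Fin 7)
    (he : ∀ x y : L, x ≤ y ↔ tblB 7 284795139209599 (e x) (e y) = true) : Representable L :=
  representable_of_check (by decide) e he chk_u26

/-- Operations for the table `u27`. -/
def ops_u27 : List (List ℕ) := [[4, 4, 0, 1, 1], [3, 3, 4, 0, 0]]

/-- Labellings for the table `u27`. -/
def labs_u27 : List (List ℕ) := [[0, 1, 2, 3, 4], [0, 1, 2, 0, 1], [0, 1, 2, 3, 3], [0, 0, 2, 3, 4], [0, 0, 2, 3, 3], [0, 0, 2, 0, 0], [0, 0, 0, 0, 0]]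

theorem chk_u27 : checkAll 7 5 (tblB 7 284803829936511) ops_u27 labs_u27 28 = true := by
  decide +kernel

theorem rep_u27 {L : Type u} [Lattice L] [Finite L] (e : L ≃ Fin 7)
    (he : ∀ x y : L, x ≤ y ↔ tblB 7 284803829936511 (e x) (e y) = true) : Representable L :=
  representable_of_check (by decide) e he chk_u27

/-- Operations for the table `u28`. -/
def ops_u28 : List (List ℕ) := [[1, 1, 4, 4, 4], [3, 4, 3, 3, 4], [0, 0, 2, 3, 2]]

/-- Labellings for the table `u28`. -/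
def labs_u28 : List (List ℕ) := [[0, 1, 2, 3, 4], [0, 1, 0, 3, 1], [0, 1, 2, 2, 4], [0, 1, 2, 2, 2], [0, 0, 2, 2, 2], [0, 1, 0, 0, 1], [0, 0, 0, 0, 0]]

theorem chk_u28 : checkAll 7 5 (tblB 7 284795173024127) ops_u28 labs_u28 33 = true := by
  decide +kernel

theorem rep_u28 {L : Type u} [Lattice L] [Finite L] (e : L ≃ Fin 7)
    (he : ∀ x y : L, x ≤ y ↔ tblB 7 284795173024127 (e x) (e y) = true) : Representable L :=
  representable_of_check (by decide) e he chk_u28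

/-- Operations for the table `u29`. -/
def ops_u29 : List (List ℕ) := [[3, 3, 3, 1, 3], [4, 2, 1, 3, 0], [0, 4, 0, 4, 4]]

/-- Labellings for the table `u29`. -/
def labs_u29 : List (List ℕ) := [[0, 1, 2, 3, 4], [0, 1, 0, 3, 1], [0, 1, 2, 3, 0], [0, 1, 1, 3, 0], [0, 1, 1, 1, 0], [0, 0, 0, 3, 0], [0, 0, 0, 0, 0]]

theorem chk_u29 : checkAll 7 5 (tblB 7 284795240132991) ops_u29 labs_u29 33 = true := by
  decide +kernel

theorem rep_u29 {L : Type u} [Lattice L] [Finite L] (e : L ≃ Fin 7)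
    (he : ∀ x y : L, x ≤ y ↔ tblB 7 284795240132991 (e x) (e y) = true) : Representable L :=
  representable_of_check (by decide) e he chk_u29

/-- Operations for the table `u30`. -/
def ops_u30 : List (List ℕ) := [[2, 2, 2, 0, 2], [4, 3, 4, 2, 4]]

/-- Labellings for the table `u30`. -/
def labs_u30 : List (List ℕ) := [[0, 1, 2, 3, 4], [0, 1, 2, 3, 0], [0, 1, 0, 3, 4], [0, 1, 2, 3, 2], [0, 1, 0, 3, 0], [0, 1, 0, 0, 0], [0, 0, 0, 0, 0]]

theorem chk_u30 : checkAll 7 5 (tblB 7 284803829938559) ops_u30 labs_u30 28 = true := by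
  decide +kernel

theorem rep_u30 {L : Type u} [Lattice L] [Finite L] (e : L ≃ Fin 7)
    (he : ∀ x y : L, x ≤ y ↔ tblB 7 284803829938559 (e x) (e y) = true) : Representable L :=
  representable_of_check (by decide) e he chk_u30

/-- Operations for the table `u31`. -/
def ops_u31 : List (List ℕ) := [[3, 1, 2, 3, 1], [4, 3, 0, 1, 0]]

/-- Labellings for the table `u31`. -/
def labs_u31 : List (List ℕ) := [[0, 1, 2, 3, 4], [0, 1, 2, 1, 4], [0, 1, 2, 0, 1], [0, 1, 1, 0, 1], [0, 1, 2, 1, 0], [0, 0, 2, 0, 0], [0, 0, 0, 0, 0]]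

theorem chk_u31 : checkAll 7 5 (tblB 7 284803729144191) ops_u31 labs_u31 28 = true := by
  decide +kernel

theorem rep_u31 {L : Type u} [Lattice L] [Finite L] (e : L ≃ Fin 7)
    (he : ∀ x y : L, x ≤ y ↔ tblB 7 284803729144191 (e x) (e y) = true) : Representable L :=
  representable_of_check (by decide) e he chk_u31

/-- Operations for the table `u32`. -/
def ops_u32 : List (List ℕ) := [[2, 4, 0, 2, 1], [0, 2, 2, 3, 3]]

/-- Labellings for the table `u32`. -/
def labs_u32 : List (List ℕ) := [[0, 1, 2, 3, 4], [0, 1, 0, 3, 4], [0, 1, 2, 0, 4], [0, 1, 1, 0, 0], [0, 1, 0, 0, 4], [0, 1, 0, 0, 1], [0, 0, 0, 0, 0]]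

theorem chk_u32 : checkAll 7 5 (tblB 7 284803729406335) ops_u32 labs_u32 28 = true := by
  decide +kernel

theorem rep_u32 {L : Type u} [Lattice L] [Finite L] (e : L ≃ Fin 7)
    (he : ∀ x y : L, x ≤ y ↔ tblB 7 284803729406335 (e x) (e y) = true) : Representable L :=
  representable_of_check (by decide) e he chk_u32

/-- Operations for the table `u33`. -/
def ops_u33 : List (List ℕ) := [[4, 3, 2, 1, 2], [1, 1, 2, 1, 4]]

/-- Labellings for the table `u33`. -/
def labs_u33 : List (List ℕ) := [[0, 1, 2, 3, 4], [0, 1, 2, 3, 2], [0, 1, 2, 1, 4], [0, 1, 1, 1, 4], [0, 1, 2, 1, 2], [0, 1, 1, 1, 1], [0, 0, 0, 0, 0]]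

theorem chk_u33 : checkAll 7 5 (tblB 7 284803796515199) ops_u33 labs_u33 28 = true := by
  decide +kernel

theorem rep_u33 {L : Type u} [Lattice L] [Finite L] (e : L ≃ Fin 7)
    (he : ∀ x y : L, x ≤ y ↔ tblB 7 284803796515199 (e x) (e y) = true) : Representable L :=
  representable_of_check (by decide) e he chk_u33

/-- Operations for the table `u34`. -/
def ops_u34 : List (List ℕ) := [[0, 0, 2, 3, 3], [3, 3, 1, 3, 1]]

/-- Labellings for the table `u34`. -/
def labs_u34 : List (List ℕ) := [[0, 1, 2, 3, 4], [0, 1, 2, 0, 4], [0, 0, 2, 3, 4], [0, 0, 2, 0, 4], [0, 0, 0, 0, 4], [0, 0, 2, 0, 0], [0, 0, 0, 0, 0]]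

theorem chk_u34 : checkAll 7 5 (tblB 7 284795240136063) ops_u34 labs_u34 28 = true := by
  decide +kernel

theorem rep_u34 {L : Type u} [Lattice L] [Finite L] (e : L ≃ Fin 7)
    (he : ∀ x y : L, x ≤ y ↔ tblB 7 284795240136063 (e x) (e y) = true) : Representable L :=
  representable_of_check (by decide) e he chk_u34

/-- Operations for the table `u35`. -/
def ops_u35 : List (List ℕ) := [[0, 0, 2, 0, 2], [1, 1, 3, 3, 1], [3, 1, 4, 3, 4]]

/-- Labellings for the table `u35`. -/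
def labs_u35 : List (List ℕ) := [[0, 1, 2, 3, 4], [0, 1, 2, 1, 4], [0, 1, 0, 1, 1], [0, 0, 2, 0, 4], [0, 1, 2, 1, 2], [0, 0, 2, 0, 2], [0, 0, 0, 0, 0]]

theorem chk_u35 : checkAll 7 5 (tblB 7 284803795599231) ops_u35 labs_u35 33 = true := by
  decide +kernel

theorem rep_u35 {L : Type u} [Lattice L] [Finite L] (e : L ≃ Fin 7)
    (he : ∀ x y : L, x ≤ y ↔ tblB 7 284803795599231 (e x) (e y) = true) : Representable L :=
  representable_of_check (by decide) e he chk_u35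

/-- Operations for the table `u36`. -/
def ops_u36 : List (List ℕ) := [[0, 0, 1, 2, 0], [1, 1, 0, 4, 0]]

/-- Labellings for the table `u36`. -/
def labs_u36 : List (List ℕ) := [[0, 1, 2, 3, 4], [0, 0, 2, 3, 4], [0, 0, 2, 3, 0], [0, 0, 0, 3, 4], [0, 0, 2, 3, 2], [0, 0, 0, 3, 0], [0, 0, 0, 0, 0]]

theorem chk_u36 : checkAll 7 5 (tblB 7 284803796123519) ops_u36 labs_u36 28 = true := by
  decide +kernel

theorem rep_u36 {L : Type u} [Lattice L] [Finite L] (e : L ≃ Fin 7)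
    (he : ∀ x y : L, x ≤ y ↔ tblB 7 284803796123519 (e x) (e y) = true) : Representable L :=
  representable_of_check (by decide) e he chk_u36

/-- Operations for the table `u37`. -/
def ops_u37 : List (List ℕ) := [[0, 0, 2, 3, 0], [4, 0, 1, 4, 3]]

/-- Labellings for the table `u37`. -/
def labs_u37 : List (List ℕ) := [[0, 1, 2, 3, 4], [0, 1, 2, 0, 4], [0, 1, 2, 0, 0], [0, 1, 2, 0, 1], [0, 1, 0, 0, 1], [0, 0, 2, 0, 0], [0, 0, 0, 0, 0]]

theorem chk_u37 : checkAll 7 5 (tblB 7 284795239743359) ops_u37 labs_u37 28 = true := by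
  decide +kernel

theorem rep_u37 {L : Type u} [Lattice L] [Finite L] (e : L ≃ Fin 7)
    (he : ∀ x y : L, x ≤ y ↔ tblB 7 284795239743359 (e x) (e y) = true) : Representable L :=
  representable_of_check (by decide) e he chk_u37

/-- Operations for the table `u38`. -/
def ops_u38 : List (List ℕ) := [[3, 0, 3, 0, 0], [4, 3, 0, 0, 0]]

/-- Labellings for the table `u38`. -/
def labs_u38 : List (List ℕ) := [[0, 1, 2, 3, 4], [0, 1, 2, 3, 3], [0, 1, 2, 0, 0], [0, 1, 0, 0, 0], [0, 0, 2, 0, 0], [0, 1, 1, 0, 0], [0, 0, 0, 0, 0]]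

theorem chk_u38 : checkAll 7 5 (tblB 7 284795139473279) ops_u38 labs_u38 28 = true := by
  decide +kernel

theorem rep_u38 {L : Type u} [Lattice L] [Finite L] (e : L ≃ Fin 7)
    (he : ∀ x y : L, x ≤ y ↔ tblB 7 284795139473279 (e x) (e y) = true) : Representable L :=
  representable_of_check (by decide) e he chk_u38

/-- Operations for the table `u39`. -/
def ops_u39 : List (List ℕ) := [[1, 0, 2, 5, 4, 3], [0, 1, 3, 1, 2, 0]]

/-- Labellings for the table `u39`. -/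
def labs_u39 : List (List ℕ) := [[0, 1, 2, 3, 4, 5], [0, 1, 2, 1, 4, 0], [0, 0, 2, 3, 4, 5], [0, 0, 2, 3, 4, 3], [0, 0, 2, 0, 4, 0], [0, 0, 0, 0, 4, 0], [0, 0, 0, 0, 0, 0]]

theorem chk_u39 : checkAll 7 6 (tblB 7 284803830069631) ops_u39 labs_u39 32 = true := by
  decide +kernel

theorem rep_u39 {L : Type u} [Lattice L] [Finite L] (e : L ≃ Fin 7)
    (he : ∀ x y : L, x ≤ y ↔ tblB 7 284803830069631 (e x) (e y) = true) : Representable L :=
  representable_of_check (by decide) e he chk_u39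

/-- Operations for the table `u40`. -/
def ops_u40 : List (List ℕ) := [[1, 0, 2, 3, 4, 5], [2, 4, 3, 2, 2, 0]]

/-- Labellings for the table `u40`. -/
def labs_u40 : List (List ℕ) := [[0, 1, 2, 3, 4, 5], [0, 1, 2, 3, 3, 5], [0, 1, 2, 2, 4, 5], [0, 1, 2, 2, 2, 5], [0, 0, 2, 2, 2, 5], [0, 0, 0, 0, 0, 5], [0, 0, 0, 0, 0, 0]]

theorem chk_u40 : checkAll 7 6 (tblB 7 284803830070655) ops_u40 labs_u40 32 = true := by
  decide +kernel

theorem rep_u40 {L : Type u} [Lattice L] [Finite L] (e : L ≃ Fin 7)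
    (he : ∀ x y : L, x ≤ y ↔ tblB 7 284803830070655 (e x) (e y) = true) : Representable L :=
  representable_of_check (by decide) e he chk_u40

/-- Operations for the table `u41`. -/
def ops_u41 : List (List ℕ) := [[5, 1, 4, 5, 2, 0], [3, 2, 0, 0, 5, 5]]

/-- Labellings for the table `u41`. -/
def labs_u41 : List (List ℕ) := [[0, 1, 2, 3, 4, 5], [0, 1, 2, 0, 4, 5], [0, 1, 0, 0, 4, 4], [0, 1, 2, 0, 4, 0], [0, 1, 2, 0, 2, 0], [0, 1, 0, 0, 0, 0], [0, 0, 0, 0, 0, 0]]

theorem chk_u41 : checkAll 7 6 (tblB 7 284803829677951) ops_u41 labs_u41 32 = true := by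
  decide +kernel

theorem rep_u41 {L : Type u} [Lattice L] [Finite L] (e : L ≃ Fin 7)
    (he : ∀ x y : L, x ≤ y ↔ tblB 7 284803829677951 (e x) (e y) = true) : Representable L :=
  representable_of_check (by decide) e he chk_u41

/-- Operations for the table `u42`. -/
def ops_u42 : List (List ℕ) := [[1, 0, 0, 2, 5, 1], [5, 5, 1, 1, 3, 1]]

/-- Labellings for the table `u42`. -/
def labs_u42 : List (List ℕ) := [[0, 1, 2, 3, 4, 5], [0, 0, 2, 3, 4, 5], [0, 0, 2, 3, 4, 0], [0, 0, 2, 3, 4, 2], [0, 0, 0, 3, 4, 0], [0, 0, 0, 0, 4, 0], [0, 0, 0, 0, 0, 0]]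

theorem chk_u42 : checkAll 7 6 (tblB 7 284803829940095) ops_u42 labs_u42 32 = true := by
  decide +kernel

theorem rep_u42 {L : Type u} [Lattice L] [Finite L] (e : L ≃ Fin 7)
    (he : ∀ x y : L, x ≤ y ↔ tblB 7 284803829940095 (e x) (e y) = true) : Representable L :=
  representable_of_check (by decide) e he chk_u42

/-- Operations for the table `u43`. -/
def ops_u43 : List (List ℕ) := [[2, 5, 4, 2, 2, 1], [0, 4, 2, 3, 4, 2], [0, 1, 2, 0, 3, 5]]

/-- Labellings for the table `u43`. -/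
def labs_u43 : List (List ℕ) := [[0, 1, 2, 3, 4, 5], [0, 1, 2, 0, 4, 5], [0, 1, 2, 0, 0, 5], [0, 0, 2, 0, 0, 2], [0, 1, 0, 0, 0, 5], [0, 1, 0, 0, 0, 1], [0, 0, 0, 0, 0, 0]]

theorem chk_u43 : checkAll 7 6 (tblB 7 284803729407871) ops_u43 labs_u43 38 = true := by
  decide +kernel

theorem rep_u43 {L : Type u} [Lattice L] [Finite L] (e : L ≃ Fin 7)
    (he : ∀ x y : L, x ≤ y ↔ tblB 7 284803729407871 (e x) (e y) = true) : Representable L :=
  representable_of_check (by decide) e he chk_u43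

/-- Operations for the table `u44`. -/
def ops_u44 : List (List ℕ) := [[4, 5, 1, 1, 5, 5], [0, 2, 2, 3, 4, 3]]

/-- Labellings for the table `u44`. -/
def labs_u44 : List (List ℕ) := [[0, 1, 2, 3, 4, 5], [0, 1, 2, 2, 4, 5], [0, 1, 2, 2, 4, 1], [0, 1, 1, 1, 4, 1], [0, 1, 2, 2, 2, 1], [0, 1, 1, 1, 1, 1], [0, 0, 0, 0, 0, 0]]

theorem chk_u44 : checkAll 7 6 (tblB 7 284803796516735) ops_u44 labs_u44 32 = true := by
  decide +kernel

theorem rep_u44 {L : Type u} [Lattice L] [Finite L] (e : L ≃ Fin 7)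
    (he : ∀ x y : L, x ≤ y ↔ tblB 7 284803796516735 (e x) (e y) = true) : Representable L :=
  representable_of_check (by decide) e he chk_u44

/-- Operations for the table `u45`. -/
def ops_u45 : List (List ℕ) := [[1, 1, 0, 2, 3, 1], [4, 4, 4, 4, 2, 2]]

/-- Labellings for the table `u45`. -/
def labs_u45 : List (List ℕ) := [[0, 1, 2, 3, 4, 5], [0, 0, 2, 3, 4, 5], [0, 0, 0, 3, 4, 5], [0, 0, 0, 0, 4, 5], [0, 0, 0, 0, 4, 4], [0, 0, 0, 0, 0, 5], [0, 0, 0, 0, 0, 0]]

theorem chk_u45 : checkAll 7 6 (tblB 7 284795240136575) ops_u45 labs_u45 32 = true := by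
  decide +kernel

theorem rep_u45 {L : Type u} [Lattice L] [Finite L] (e : L ≃ Fin 7)
    (he : ∀ x y : L, x ≤ y ↔ tblB 7 284795240136575 (e x) (e y) = true) : Representable L :=
  representable_of_check (by decide) e he chk_u45

/-- Operations for the table `u46`. -/
def ops_u46 : List (List ℕ) := [[0, 6, 2, 0, 4, 1, 6], [0, 2, 2, 4, 4, 2, 6], [1, 6, 5, 6, 5, 6, 1], [3, 0, 3, 0, 3, 3, 3]]

/-- Labellings for the table `u46`. -/
def labs_u46 : List (List ℕ) := [[0, 1, 2, 3, 4, 5, 6], [0, 1, 1, 0, 0, 1, 1], [0, 1, 2, 3, 2, 5, 6], [0, 1, 2, 3, 4, 5, 0], [0, 1, 2, 3, 2, 5, 0], [0, 1, 2, 1, 2, 5, 0], [0, 0, 0, 0, 0, 0, 0]]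

theorem chk_u46 : checkAll 7 7 (tblB 7 284803829932415) ops_u46 labs_u46 50 = true := by
  decide +kernel

theorem rep_u46 {L : Type u} [Lattice L] [Finite L] (e : L ≃ Fin 7)
    (he : ∀ x y : L, x ≤ y ↔ tblB 7 284803829932415 (e x) (e y) = true) : Representable L :=
  representable_of_check (by decide) e he chk_u46

/-- Operations for the table `u47`. -/
def ops_u47 : List (List ℕ) := [[1, 0, 5, 0, 5, 6, 5], [2, 2, 3, 2, 1, 3, 3], [1, 0, 3, 3, 3, 1, 0], [2, 4, 2, 2, 4, 2, 4]]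

/-- Labellings for the table `u47`. -/
def labs_u47 : List (List ℕ) := [[0, 1, 2, 3, 4, 5, 6], [0, 1, 2, 2, 4, 0, 1], [0, 0, 2, 0, 2, 5, 6], [0, 0, 2, 0, 2, 5, 5], [0, 0, 2, 0, 2, 5, 2], [0, 0, 2, 0, 2, 2, 2], [0, 0, 0, 0, 0, 0, 0]]

theorem chk_u47 : checkAll 7 7 (tblB 7 284803796509055) ops_u47 labs_u47 50 = true := by
  decide +kernel

theorem rep_u47 {L : Type u} [Lattice L] [Finite L] (e : L ≃ Fin 7)
    (he : ∀ x y : L, x ≤ y ↔ tblB 7 284803796509055 (e x) (e y) = true) : Representable L :=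
  representable_of_check (by decide) e he chk_u47

/-- Operations for the table `u48`. -/
def ops_u48 : List (List ℕ) := [[0, 4, 6, 2, 5, 1, 3], [0, 3, 5, 1, 6, 2, 4]]

/-- Labellings for the table `u48`. -/
def labs_u48 : List (List ℕ) := [[0, 1, 2, 3, 4, 5, 6], [0, 1, 2, 1, 2, 5, 5], [0, 1, 2, 3, 3, 2, 1], [0, 1, 1, 3, 4, 3, 4], [0, 1, 2, 2, 1, 1, 2], [0, 1, 1, 1, 1, 1, 1], [0, 0, 0, 0, 0, 0, 0]]

theorem chk_u48 : checkAll 7 7 (tblB 7 284803796119935) ops_u48 labs_u48 36 = true := by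
  decide +kernel

theorem rep_u48 {L : Type u} [Lattice L] [Finite L] (e : L ≃ Fin 7)
    (he : ∀ x y : L, x ≤ y ↔ tblB 7 284803796119935 (e x) (e y) = true) : Representable L :=
  representable_of_check (by decide) e he chk_u48

/-- Operations for the table `u49`. -/
def ops_u49 : List (List ℕ) := [[1, 1, 3, 1, 3, 1, 6], [0, 1, 3, 2, 5, 4, 4], [5, 3, 2, 3, 4, 5, 6], [0, 1, 1, 1, 0, 0, 0]]

/-- Labellings for the table `u49`. -/
def labs_u49 : List (List ℕ) := [[0, 1, 2, 3, 4, 5, 6], [0, 0, 2, 3, 2, 3, 6], [0, 1, 1, 1, 4, 5, 6], [0, 1, 1, 1, 4, 4, 6], [0, 1, 1, 1, 0, 0, 6], [0, 0, 0, 0, 0, 0, 6], [0, 0, 0, 0, 0, 0, 0]]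

theorem chk_u49 : checkAll 7 7 (tblB 7 284803830067583) ops_u49 labs_u49 50 = true := by
  decide +kernel

theorem rep_u49 {L : Type u} [Lattice L] [Finite L] (e : L ≃ Fin 7)
    (he : ∀ x y : L, x ≤ y ↔ tblB 7 284803830067583 (e x) (e y) = true) : Representable L :=
  representable_of_check (by decide) e he chk_u49

/-- Operations for the table `u50`. -/
def ops_u50 : List (List ℕ) := [[3, 2, 2, 2, 3, 2, 4], [5, 0, 0, 0, 5, 0, 3], [1, 0, 4, 2, 2, 1, 1]]

/-- Labellings for the table `u50`. -/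
def labs_u50 : List (List ℕ) := [[0, 1, 2, 3, 4, 5, 6], [0, 1, 1, 3, 0, 5, 6], [0, 1, 2, 2, 2, 0, 6], [0, 0, 2, 2, 2, 0, 6], [0, 1, 1, 3, 0, 3, 6], [0, 0, 0, 0, 0, 0, 6], [0, 0, 0, 0, 0, 0, 0]]

theorem chk_u50 : checkAll 7 7 (tblB 7 284803796253055) ops_u50 labs_u50 43 = true := by
  decide +kernel

theorem rep_u50 {L : Type u} [Lattice L] [Finite L] (e : L ≃ Fin 7)
    (he : ∀ x y : L, x ≤ y ↔ tblB 7 284803796253055 (e x) (e y) = true) : Representable L :=
  representable_of_check (by decide) e he chk_u50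

/-- Operations for the table `u51`. -/
def ops_u51 : List (List ℕ) := [[5, 3, 4, 1, 2, 0, 0], [0, 1, 2, 3, 4, 6, 5], [2, 4, 0, 5, 1, 3, 3]]

/-- Labellings for the table `u51`. -/
def labs_u51 : List (List ℕ) := [[0, 1, 2, 3, 4, 5, 6], [0, 1, 2, 3, 4, 5, 5], [0, 1, 0, 1, 4, 4, 4], [0, 0, 2, 3, 2, 3, 3], [0, 1, 1, 0, 0, 1, 1], [0, 1, 2, 2, 1, 0, 0], [0, 0, 0, 0, 0, 0, 0]]

theorem chk_u51 : checkAll 7 7 (tblB 7 284795138555775) ops_u51 labs_u51 43 = true := by
  decide +kernel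

theorem rep_u51 {L : Type u} [Lattice L] [Finite L] (e : L ≃ Fin 7)
    (he : ∀ x y : L, x ≤ y ↔ tblB 7 284795138555775 (e x) (e y) = true) : Representable L :=
  representable_of_check (by decide) e he chk_u51

/-- Operations for the table `u52`. -/
def ops_u52 : List (List ℕ) := [[1, 1, 3, 1, 3, 1, 6], [0, 1, 3, 2, 5, 4, 6], [1, 1, 1, 6, 6, 1, 1], [5, 3, 2, 3, 4, 5, 3], [0, 1, 1, 1, 0, 0, 1]]

/-- Labellings for the table `u52`. -/
def labs_u52 : List (List ℕ) := [[0, 1, 2, 3, 4, 5, 6], [0, 1, 2, 3, 4, 5, 1], [0, 0, 2, 3, 2, 3, 0], [0, 1, 1, 1, 4, 5, 1], [0, 1, 1, 1, 4, 4, 1], [0, 1, 1, 1, 0, 0, 1], [0, 0, 0, 0, 0, 0, 0]]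

theorem chk_u52 : checkAll 7 7 (tblB 7 284803829153663) ops_u52 labs_u52 57 = true := by
  decide +kernel

theorem rep_u52 {L : Type u} [Lattice L] [Finite L] (e : L ≃ Fin 7)
    (he : ∀ x y : L, x ≤ y ↔ tblB 7 284803829153663 (e x) (e y) = true) : Representable L :=
  representable_of_check (by decide) e he chk_u52

/-- Operations for the table `u53`. -/
def ops_u53 : List (List ℕ) := [[5, 3, 2, 0, 6, 2, 1]]

/-- Labellings for the table `u53`. -/
def labs_u53 : List (List ℕ) := [[0, 1, 2, 3, 4, 5, 6], [0, 1, 2, 3, 4, 2, 6], [0, 1, 0, 3, 4, 0, 6], [0, 1, 0, 0, 4, 0, 6], [0, 0, 0, 0, 4, 0, 6], [0, 0, 0, 0, 4, 0, 0], [0, 0, 0, 0, 0, 0, 0]]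

theorem chk_u53 : checkAll 7 7 (tblB 7 284803830071167) ops_u53 labs_u53 29 = true := by
  decide +kernel

theorem rep_u53 {L : Type u} [Lattice L] [Finite L] (e : L ≃ Fin 7)
    (he : ∀ x y : L, x ≤ y ↔ tblB 7 284803830071167 (e x) (e y) = true) : Representable L :=
  representable_of_check (by decide) e he chk_u53

/-- Operations for the table `u54`. -/
def ops_u54 : List (List ℕ) := [[7, 0, 7, 1, 0, 7, 5, 0], [6, 3, 4, 4, 2, 6, 2, 3], [5, 2, 0, 2, 0, 2, 2, 5]]

/-- Labellings for the table `u54`. -/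
def labs_u54 : List (List ℕ) := [[0, 1, 2, 3, 4, 5, 6, 7], [0, 1, 2, 3, 2, 1, 3, 0], [0, 1, 0, 3, 4, 0, 4, 7], [0, 1, 0, 3, 4, 0, 4, 1], [0, 1, 0, 0, 4, 0, 4, 1], [0, 1, 0, 0, 1, 0, 1, 1], [0, 0, 0, 0, 0, 0, 0, 0]]

theorem chk_u54 : checkAll 7 8 (tblB 7 284803830063487) ops_u54 labs_u54 48 = true := by
  decide +kernel

theorem rep_u54 {L : Type u} [Lattice L] [Finite L] (e : L ≃ Fin 7)
    (he : ∀ x y : L, x ≤ y ↔ tblB 7 284803830063487 (e x) (e y) = true) : Representable L :=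
  representable_of_check (by decide) e he chk_u54

/-- Operations for the table `u55`. -/
def ops_u55 : List (List ℕ) := [[0, 4, 6, 0, 4, 4, 6, 0], [7, 1, 5, 2, 7, 5, 7, 5], [0, 6, 3, 0, 7, 7, 3, 0]]

/-- Labellings for the table `u55`. -/
def labs_u55 : List (List ℕ) := [[0, 1, 2, 3, 4, 5, 6, 7], [0, 1, 2, 3, 4, 2, 4, 3], [0, 1, 2, 0, 4, 5, 0, 2], [0, 1, 2, 3, 0, 0, 6, 0], [0, 1, 2, 3, 0, 0, 2, 0], [0, 1, 0, 0, 0, 0, 0, 0], [0, 0, 0, 0, 0, 0, 0, 0]]

theorem chk_u55 : checkAll 7 8 (tblB 7 284803829674367) ops_u55 labs_u55 48 = true := by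
  decide +kernel

theorem rep_u55 {L : Type u} [Lattice L] [Finite L] (e : L ≃ Fin 7)
    (he : ∀ x y : L, x ≤ y ↔ tblB 7 284803829674367 (e x) (e y) = true) : Representable L :=
  representable_of_check (by decide) e he chk_u55

/-- Operations for the table `u56`. -/
def ops_u56 : List (List ℕ) := [[1, 0, 1, 1, 6, 6, 0, 1], [5, 5, 5, 5, 0, 0, 5, 5], [7, 7, 0, 7, 0, 7, 7, 0], [2, 6, 3, 2, 3, 2, 6, 3], [7, 7, 4, 4, 7, 7, 4, 7], [2, 2, 6, 2, 6, 2, 2, 6], [3, 6, 0, 0, 3, 3, 1, 3]]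

/-- Labellings for the table `u56`. -/
def labs_u56 : List (List ℕ) := [[0, 1, 2, 3, 4, 5, 6, 7], [0, 0, 2, 2, 4, 5, 2, 0], [0, 1, 2, 3, 4, 0, 1, 4], [0, 1, 2, 0, 4, 0, 1, 4], [0, 1, 2, 0, 2, 0, 1, 2], [0, 0, 2, 2, 4, 4, 2, 0], [0, 0, 0, 0, 0, 0, 0, 0]]

theorem chk_u56 : checkAll 7 8 (tblB 7 284795172499839) ops_u56 labs_u56 80 = true := by
  decide +kernel

theorem rep_u56 {L : Type u} [Lattice L] [Finite L] (e : L ≃ Fin 7)
    (he : ∀ x y : L, x ≤ y ↔ tblB 7 284795172499839 (e x) (e y) = true) : Representable L :=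
  representable_of_check (by decide) e he chk_u56

/-- Operations for the table `u57`. -/
def ops_u57 : List (List ℕ) := [[0, 4, 5, 4, 0, 0, 5, 5, 4], [1, 3, 8, 3, 1, 1, 8, 8, 3], [0, 0, 2, 3, 3, 2, 0, 3, 2], [6, 7, 2, 7, 6, 6, 2, 2, 7], [5, 5, 2, 8, 8, 2, 5, 8, 2]]

/-- Labellings for the table `u57`. -/
def labs_u57 : List (List ℕ) := [[0, 1, 2, 3, 4, 5, 6, 7, 8], [0, 0, 2, 0, 0, 5, 6, 6, 5], [0, 1, 2, 2, 4, 4, 6, 2, 2], [0, 1, 0, 3, 4, 0, 0, 7, 1], [0, 1, 0, 3, 4, 0, 0, 4, 1], [0, 1, 2, 2, 4, 4, 1, 2, 2], [0, 0, 0, 0, 0, 0, 0, 0, 0]]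

theorem chk_u57 : checkAll 7 9 (tblB 7 284795172626815) ops_u57 labs_u57 71 = true := by
  decide +kernel

theorem rep_u57 {L : Type u} [Lattice L] [Finite L] (e : L ≃ Fin 7)
    (he : ∀ x y : L, x ≤ y ↔ tblB 7 284795172626815 (e x) (e y) = true) : Representable L :=
  representable_of_check (by decide) e he chk_u57

end Vale.Agent.P183L.Small
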