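import Vale.Agent.P183L.Uni.Spec

/-!
All lattices with at most seven elements.
-/

namespace Vale.Agent.P183L.Small

open Vale.Agent.P183

universe u


def pI2 : List ℕ := [0, 0, 0, 0]
def pidx2 (a b : ℕ) : ℕ := gd pI2 (a * 2 + b)
def pa2 : List ℕ := []
def pb2 : List ℕ := []
def bases2 : List ℕ := [11]
def ents2 : List (List ℕ) := [[0, 0, 0, 1]]

theorem cls2 : allB (2 ^ 0) (fun c => entryOK 2 pidx2 bases2 c (ents2.getD c [])) = true := by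
  decide +kernel

theorem hpk2 : allB 2 (fun a => allB 2 (fun b =>
    or (not (and (Nat.ble 1 a) (and (Nat.ble (Nat.add a 1) b) (Nat.ble (Nat.add b 2) 2))))
      (and (Nat.ble (Nat.add (pidx2 a b) 1) 0) (and (Nat.beq (gd pa2 (pidx2 a b)) a)
        (Nat.beq (gd pb2 (pidx2 a b)) b))))) = true := by decide +kernel

theorem rep_card2 {L : Type u} [Lattice L] [Finite L] (hcard : Nat.card L = 2) : Representable L := by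
  refine rep_of_classify (N := 0) pidx2 (gd pa2) (gd pb2) bases2 ents2 (by decide) (hp_of_check hpk2) cls2 ?_ hcard
  · intro i hi e he
    have hi' : i < 1 := hi
    interval_cases i
    · exact rep_u0 e he


def pI3 : List ℕ := [0, 0, 0, 0, 0, 0, 0, 0, 0]
def pidx3 (a b : ℕ) : ℕ := gd pI3 (a * 3 + b)
def pa3 : List ℕ := []
def pb3 : List ℕ := []
def bases3 : List ℕ := [311]
def ents3 : List (List ℕ) := [[0, 0, 0, 1, 2]]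

theorem cls3 : allB (2 ^ 0) (fun c => entryOK 3 pidx3 bases3 c (ents3.getD c [])) = true := by
  decide +kernel

theorem hpk3 : allB 3 (fun a => allB 3 (fun b =>
    or (not (and (Nat.ble 1 a) (and (Nat.ble (Nat.add a 1) b) (Nat.ble (Nat.add b 2) 3))))
      (and (Nat.ble (Nat.add (pidx3 a b) 1) 0) (and (Nat.beq (gd pa3 (pidx3 a b)) a)
        (Nat.beq (gd pb3 (pidx3 a b)) b))))) = true := by decide +kernel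

theorem rep_card3 {L : Type u} [Lattice L] [Finite L] (hcard : Nat.card L = 3) : Representable L := by
  refine rep_of_classify (N := 0) pidx3 (gd pa3) (gd pb3) bases3 ents3 (by decide) (hp_of_check hpk3) cls3 ?_ hcard
  · intro i hi e he
    have hi' : i < 1 := hi
    interval_cases i
    · exact rep_u1 e he


def pI4 : List ℕ := [0, 0, 0, 0, 0, 0, 0, 0, 0, 0, 0, 0, 0, 0, 0, 0]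
def pidx4 (a b : ℕ) : ℕ := gd pI4 (a * 4 + b)
def pa4 : List ℕ := [1]
def pb4 : List ℕ := [2]
def bases4 : List ℕ := [36015, 36079]
def ents4 : List (List ℕ) := [[0, 0, 0, 1, 2, 3], [0, 1, 0, 1, 2, 3]]

theorem cls4 : allB (2 ^ 1) (fun c => entryOK 4 pidx4 bases4 c (ents4.getD c [])) = true := by
  decide +kernel

theorem hpk4 : allB 4 (fun a => allB 4 (fun b =>
    or (not (and (Nat.ble 1 a) (and (Nat.ble (Nat.add a 1) b) (Nat.ble (Nat.add b 2) 4))))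
      (and (Nat.ble (Nat.add (pidx4 a b) 1) 1) (and (Nat.beq (gd pa4 (pidx4 a b)) a)
        (Nat.beq (gd pb4 (pidx4 a b)) b))))) = true := by decide +kernel

theorem rep_card4 {L : Type u} [Lattice L] [Finite L] (hcard : Nat.card L = 4) : Representable L := by
  refine rep_of_classify (N := 1) pidx4 (gd pa4) (gd pb4) bases4 ents4 (by decide) (hp_of_check hpk4) cls4 ?_ hcard
  · intro i hi e he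
    have hi' : i < 2 := hi
    interval_cases i
    · exact rep_u2 e he
    · exact rep_u3 e he


def pI5 : List ℕ := [0, 0, 0, 0, 0, 0, 0, 0, 1, 0, 0, 0, 0, 2, 0, 0, 0, 0, 0, 0, 0, 0, 0, 0, 0]
def pidx5 (a b : ℕ) : ℕ := gd pI5 (a * 5 + b)
def pa5 : List ℕ := [1, 1, 2]
def pb5 : List ℕ := [2, 3, 3]
def bases5 : List ℕ := [17584735, 17592927, 17593183, 17585119, 17593311]
def ents5 : List (List ℕ) := [[0, 0, 0, 1, 2, 3, 4], [0, 1, 0, 2, 3, 1, 4], [0, 1, 0, 2, 1, 3, 4], [0, 3, 0, 1, 2, 3, 4], [0, 1, 0, 1, 2, 3, 4], [1, 1, 2, 3], [0, 2, 0, 1, 2, 3, 4], [0, 4, 0, 1, 2, 3, 4]]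

theorem cls5 : allB (2 ^ 3) (fun c => entryOK 5 pidx5 bases5 c (ents5.getD c [])) = true := by
  decide +kernel

theorem hpk5 : allB 5 (fun a => allB 5 (fun b =>
    or (not (and (Nat.ble 1 a) (and (Nat.ble (Nat.add a 1) b) (Nat.ble (Nat.add b 2) 5))))
      (and (Nat.ble (Nat.add (pidx5 a b) 1) 3) (and (Nat.beq (gd pa5 (pidx5 a b)) a)
        (Nat.beq (gd pb5 (pidx5 a b)) b))))) = true := by decide +kernel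

theorem rep_card5 {L : Type u} [Lattice L] [Finite L] (hcard : Nat.card L = 5) : Representable L := by
  refine rep_of_classify (N := 3) pidx5 (gd pa5) (gd pb5) bases5 ents5 (by decide) (hp_of_check hpk5) cls5 ?_ hcard
  · intro i hi e he
    have hi' : i < 5 := hi
    interval_cases i
    · exact rep_u4 e he
    · exact rep_u5 e he
    · exact rep_u6 e he
    · exact rep_u7 e he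
    · exact rep_u8 e he


def pI6 : List ℕ := [0, 0, 0, 0, 0, 0, 0, 0, 0, 1, 2, 0, 0, 0, 0, 3, 4, 0, 0, 0, 0, 0, 5, 0, 0, 0, 0, 0, 0, 0, 0, 0, 0, 0, 0, 0]
def pidx6 (a b : ℕ) : ℕ := gd pI6 (a * 6 + b)
def pa6 : List ℕ := [1, 1, 1, 2, 2, 3]
def pb6 : List ℕ := [2, 3, 4, 3, 4, 4]
def bases6 : List ℕ := [35175680191, 35179874495, 35179940031, 35175778495, 35179972799, 35179941055, 35175713983, 35175779519, 35179973823, 35179974335, 35175681983, 35179876287, 35179941823, 35175780287, 35179974591]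
def ents6 : List (List ℕ) := [[0, 0, 0, 1, 2, 3, 4, 5], [0, 1, 0, 3, 4, 1, 2, 5], [0, 1, 0, 3, 1, 4, 2, 5], [0, 3, 0, 2, 3, 4, 1, 5], [0, 1, 0, 3, 1, 2, 4, 5], [0, 3, 0, 2, 3, 1, 4, 5], [0, 3, 0, 2, 1, 3, 4, 5], [0, 10, 0, 1, 2, 3, 4, 5], [0, 1, 0, 1, 3, 4, 2, 5], [1, 1, 2, 3], [0, 2, 0, 2, 3, 4, 1, 5], [0, 4, 0, 2, 3, 4, 1, 5], [0, 6, 0, 1, 2, 3, 4, 5], [1, 1, 2, 3], [0, 7, 0, 2, 1, 4, 3, 5], [0, 11, 0, 1, 3, 4, 2, 5], [0, 1, 0, 1, 3, 2, 4, 5], [1, 1, 2, 4], [0, 6, 0, 1, 2, 4, 3, 5], [1, 1, 2, 4], [0, 2, 0, 2, 3, 1, 4, 5], [0, 4, 0, 2, 3, 1, 4, 5], [0, 7, 0, 2, 1, 3, 4, 5], [0, 11, 0, 1, 3, 2, 4, 5], [0, 3, 0, 1, 2, 3, 4, 5], [1, 1, 2, 3], [0, 7, 0, 1, 2, 4, 3, 5], [1, 1, 2, 4], [0, 7, 0, 1, 2, 3, 4, 5], [1, 1, 2, 3], [2, 1, 2], [0, 13, 0, 1, 2, 3, 4,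 5], [0, 1, 0, 1, 2, 3, 4, 5], [0, 6, 0, 1, 4, 2, 3, 5], [1, 1, 3, 4], [1, 1, 3, 4], [0, 2, 0, 2, 1, 3, 4, 5], [0, 7, 0, 2, 3, 1, 4, 5], [0, 4, 0, 2, 1, 3, 4, 5], [0, 11, 0, 1, 2, 3, 4, 5], [1, 2, 3, 4], [1, 1, 2, 3], [1, 1, 3, 4], [1, 1, 3, 4], [1, 2, 3, 4], [1, 1, 2, 3], [1, 2, 3, 4], [1, 2, 3, 4], [0, 2, 0, 1, 2, 3, 4, 5], [1, 1, 2, 4], [1, 1, 3, 4], [1, 1, 2, 4], [0, 5, 0, 1, 2, 3, 4, 5], [0, 8, 0, 2, 3, 1, 4, 5], [0, 8, 0, 2, 1, 3, 4, 5], [0, 12, 0, 1, 2, 3, 4, 5], [0, 4, 0, 1, 2, 3, 4, 5], [1, 1, 2, 3], [1, 1, 3, 4], [1, 1, 2, 4], [0, 8, 0, 1, 2, 3, 4, 5], [1, 1, 2, 3], [0, 9, 0, 1, 2, 3, 4, 5], [0, 14, 0, 1, 2, 3, 4, 5]]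

theorem cls6 : allB (2 ^ 6) (fun c => entryOK 6 pidx6 bases6 c (ents6.getD c [])) = true := by
  decide +kernel

theorem hpk6 : allB 6 (fun a => allB 6 (fun b =>
    or (not (and (Nat.ble 1 a) (and (Nat.ble (Nat.add a 1) b) (Nat.ble (Nat.add b 2) 6))))
      (and (Nat.ble (Nat.add (pidx6 a b) 1) 6) (and (Nat.beq (gd pa6 (pidx6 a b)) a)
        (Nat.beq (gd pb6 (pidx6 a b)) b))))) = true := by decide +kernel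

theorem rep_card6 {L : Type u} [Lattice L] [Finite L] (hcard : Nat.card L = 6) : Representable L := by
  refine rep_of_classify (N := 6) pidx6 (gd pa6) (gd pb6) bases6 ents6 (by decide) (hp_of_check hpk6) cls6 ?_ hcard
  · intro i hi e he
    have hi' : i < 15 := hi
    interval_cases i
    · exact rep_u18 e he
    · exact rep_u21 e he
    · exact rep_u9 e he
    · exact rep_v0 e he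
    · exact rep_u19 e he
    · exact rep_u10 e he
    · exact rep_u22 e he
    · exact rep_u11 e he
    · exact rep_u13 e he
    · exact rep_u14 e he
    · exact rep_u12 e he
    · exact rep_u15 e he
    · exact rep_u16 e he
    · exact rep_u17 e he
    · exact rep_u20 e he


def pI7 : List ℕ := [0, 0, 0, 0, 0, 0, 0, 0, 0, 0, 1, 2, 3, 0, 0, 0, 0, 4, 5, 6, 0, 0, 0, 0, 0, 7, 8, 0, 0, 0, 0, 0, 0, 9, 0, 0, 0, 0, 0, 0, 0, 0, 0, 0, 0, 0, 0, 0, 0]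
def pidx7 (a b : ℕ) : ℕ := gd pI7 (a * 7 + b)
def pa7 : List ℕ := [1, 1, 1, 1, 2, 2, 2, 3, 3, 4]
def pb7 : List ℕ := [2, 3, 4, 5, 3, 4, 5, 4, 5, 5]
def bases7 : List ℕ := [284795138548095, 284803728482687, 284803795591551, 284795239211391, 284803829145983, 284803796115839, 284795172626815, 284795239735679, 284803829670271, 284803829932415, 284795139465599, 284803729400191, 284803796509055, 284795240128895, 284803830063487, 284803796119935, 284795172630911, 284795239739775, 284803829674367, 284795239477631, 284803829936511, 284795138945407, 284795172499839, 284795139469695, 284803729404287, 284803796513151, 284795173024127, 284795240132991, 284803830067583, 284803829938559, 284795139209599, 284803729144191, 284803796253055, 284803729406335, 284803796515199,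 284803830069631, 284795240136063, 284803830070655, 284795138555775, 284803728490367, 284803795599231, 284795239219071, 284803829153663, 284803796123519, 284795172634495, 284795239743359, 284803829677951, 284803829940095, 284795139473279, 284803729407871, 284803796516735, 284795240136575, 284803830071167]
def ents7 : List (List ℕ) := [[0, 0, 0, 1, 2, 3, 4, 5, 6], [0, 1, 0, 4, 5, 1, 2, 3, 6], [0, 1, 0, 4, 1, 5, 2, 3, 6], [0, 3, 0, 3, 4, 5, 1, 2, 6], [0, 1, 0, 4, 1, 2, 5, 3, 6], [0, 3, 0, 3, 4, 1, 5, 2, 6], [0, 3, 0, 3, 1, 4, 5, 2, 6], [0, 10, 0, 2, 3, 4, 5, 1, 6], [0, 1, 0, 4, 1, 2, 3, 5, 6], [0, 3, 0, 3, 4, 1, 2, 5, 6], [0, 3, 0, 3, 1, 4, 2, 5, 6], [0, 10, 0, 2, 3, 4, 1, 5, 6], [0, 3, 0, 3, 1, 2, 4, 5, 6], [0, 10, 0, 2, 3, 1, 4, 5, 6], [0, 10, 0, 2, 1,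 3, 4, 5, 6], [0, 38, 0, 1, 2, 3, 4, 5, 6], [0, 1, 0, 1, 4, 5, 2, 3, 6], [1, 1, 2, 3], [0, 2, 0, 3, 4, 5, 1, 2, 6], [0, 4, 0, 3, 4, 5, 1, 2, 6], [0, 6, 0, 2, 3, 4, 5, 1, 6], [1, 1, 2, 3], [0, 7, 0, 3, 2, 5, 4, 1, 6], [0, 11, 0, 2, 4, 5, 3, 1, 6], [0, 6, 0, 2, 3, 4, 1, 5, 6], [1, 1, 2, 3], [0, 7, 0, 3, 2, 5, 1, 4, 6], [0, 11, 0, 2, 4, 5, 1, 3, 6], [0, 21, 0, 2, 1, 5, 3, 4, 6], [1, 1, 2, 3], [0, 23, 0, 2, 1, 5, 3, 4, 6], [0, 39, 0, 1, 4, 5, 2, 3, 6], [0, 1, 0, 1, 4, 2, 5, 3, 6], [1, 1, 2, 4], [0, 6, 0, 2, 3, 5, 4, 1, 6], [1, 1, 2, 4], [0, 2, 0, 3, 4, 1, 5, 2, 6], [0, 4, 0, 3, 4, 1, 5, 2, 6], [0, 7, 0, 3, 2, 4, 5, 1, 6], [0, 11, 0, 2, 4, 3, 5, 1, 6], [0, 6, 0, 2, 3, 1, 4, 5, 6], [1, 1, 2, 4], [0, 21, 0, 2, 1, 3, 5, 4, 6], [1, 1, 2, 4], [0, 7, 0, 3, 2, 1,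 5, 4, 6], [0, 11, 0, 2, 4, 1, 5, 3, 6], [0, 23, 0, 2, 1, 3, 5, 4, 6], [0, 39, 0, 1, 4, 2, 5, 3, 6], [0, 3, 0, 1, 3, 4, 5, 2, 6], [1, 1, 2, 3], [0, 7, 0, 2, 3, 5, 4, 1, 6], [1, 1, 2, 4], [0, 7, 0, 2, 3, 4, 5, 1, 6], [1, 1, 2, 3], [2, 1, 2], [0, 13, 0, 2, 3, 4, 5, 1, 6], [0, 21, 0, 1, 2, 3, 4, 5, 6], [1, 1, 2, 3], [0, 30, 0, 1, 2, 5, 3, 4, 6], [1, 1, 2, 4], [0, 30, 0, 1, 2, 3, 5, 4, 6], [1, 1, 2, 3], [2, 1, 2], [0, 41, 0, 1, 3, 4, 5, 2, 6], [0, 1, 0, 1, 4, 2, 3, 5, 6], [1, 1, 2, 5], [0, 6, 0, 2, 3, 5, 1, 4, 6], [1, 1, 2, 5], [0, 6, 0, 2, 3, 1, 5, 4, 6], [1, 1, 2, 5], [0, 21, 0, 2, 1, 3, 4, 5, 6], [1, 1, 2, 5], [0, 2, 0, 3, 4, 1, 2, 5, 6], [0, 4, 0, 3, 4, 1, 2, 5, 6], [0, 7, 0, 3, 2, 4, 1, 5, 6], [0, 11, 0, 2, 4, 3, 1, 5, 6], [0, 7, 0, 3, 2, 1, 4, 5, 6],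 [0, 11, 0, 2, 4, 1, 3, 5, 6], [0, 23, 0, 2, 1, 3, 4, 5, 6], [0, 39, 0, 1, 4, 2, 3, 5, 6], [0, 3, 0, 1, 3, 4, 2, 5, 6], [1, 1, 2, 3], [0, 7, 0, 2, 3, 5, 1, 4, 6], [1, 1, 2, 5], [0, 21, 0, 1, 2, 3, 5, 4, 6], [1, 1, 2, 3], [0, 30, 0, 1, 2, 5, 4, 3, 6], [1, 1, 2, 5], [0, 7, 0, 2, 3, 4, 1, 5, 6], [1, 1, 2, 3], [2, 1, 2], [0, 13, 0, 2, 3, 4, 1, 5, 6], [0, 30, 0, 1, 2, 3, 4, 5, 6], [1, 1, 2, 3], [2, 1, 2], [0, 41, 0, 1, 3, 4, 2, 5, 6], [0, 3, 0, 1, 3, 2, 4, 5, 6], [1, 1, 2, 4], [0, 21, 0, 1, 2, 5, 3, 4, 6], [1, 1, 2, 4], [0, 7, 0, 2, 3, 1, 5, 4, 6], [1, 1, 2, 5], [0, 30, 0, 1, 2, 4, 5, 3, 6], [1, 1, 2, 5], [0, 7, 0, 2, 3, 1, 4, 5, 6], [1, 1, 2, 4], [0, 30, 0, 1, 2, 4, 3, 5, 6], [1, 1, 2, 4], [2, 1, 2], [0, 13, 0, 2, 3, 1, 4, 5, 6], [2, 1, 2], [0, 41, 0, 1, 3,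 2, 4, 5, 6], [0, 10, 0, 1, 2, 3, 4, 5, 6], [1, 1, 2, 3], [0, 23, 0, 1, 2, 5, 3, 4, 6], [1, 1, 2, 4], [0, 23, 0, 1, 2, 3, 5, 4, 6], [1, 1, 2, 3], [2, 1, 2], [1, 1, 2, 5], [0, 23, 0, 1, 2, 3, 4, 5, 6], [1, 1, 2, 3], [2, 1, 2], [1, 1, 2, 4], [2, 1, 2], [1, 1, 2, 3], [2, 1, 2], [0, 48, 0, 1, 2, 3, 4, 5, 6], [0, 1, 0, 1, 2, 4, 5, 3, 6], [0, 6, 0, 2, 5, 3, 4, 1, 6], [1, 1, 3, 4], [1, 1, 3, 4], [0, 2, 0, 3, 1, 4, 5, 2, 6], [0, 7, 0, 3, 4, 2, 5, 1, 6], [0, 4, 0, 3, 1, 4, 5, 2, 6], [0, 11, 0, 2, 3, 4, 5, 1, 6], [0, 6, 0, 2, 1, 3, 4, 5, 6], [0, 21, 0, 2, 3, 1, 5, 4, 6], [1, 1, 3, 4], [1, 1, 3, 4], [0, 7, 0, 3, 1, 2, 5, 4, 6], [0, 23, 0, 2, 3, 1, 5, 4, 6], [0, 11, 0, 2, 1, 4, 5, 3, 6], [0, 39, 0, 1, 2, 4, 5, 3, 6], [1, 2, 3, 4], [1, 1, 2, 3], [1, 1, 3, 4], [1, 1,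 3, 4], [1, 2, 3, 4], [1, 1, 2, 3], [1, 2, 3, 4], [1, 2, 3, 4], [1, 2, 3, 4], [1, 1, 2, 3], [1, 1, 3, 4], [1, 1, 3, 4], [1, 2, 3, 4], [1, 1, 2, 3], [1, 2, 3, 4], [1, 2, 3, 4], [0, 2, 0, 1, 3, 4, 5, 2, 6], [1, 1, 2, 4], [1, 1, 3, 4], [1, 1, 2, 4], [0, 5, 0, 2, 3, 4, 5, 1, 6], [0, 8, 0, 3, 4, 2, 5, 1, 6], [0, 8, 0, 3, 2, 4, 5, 1, 6], [0, 12, 0, 2, 3, 4, 5, 1, 6], [0, 16, 0, 3, 1, 2, 5, 4, 6], [1, 1, 2, 4], [1, 1, 3, 4], [1, 1, 2, 4], [0, 17, 0, 3, 1, 2, 5, 4, 6], [0, 24, 0, 2, 4, 1, 5, 3, 6], [0, 24, 0, 2, 1, 4, 5, 3, 6], [0, 40, 0, 1, 3, 4, 5, 2, 6], [0, 4, 0, 1, 3, 4, 5, 2, 6], [1, 1, 2, 3], [1, 1, 3, 4], [1, 1, 2, 4], [0, 8, 0, 2, 3, 4, 5, 1, 6], [1, 1, 2, 3], [0, 9, 0, 2, 3, 4, 5, 1, 6], [0, 14, 0, 2, 3, 4, 5, 1, 6], [0, 22, 0, 1, 2, 3, 4, 5, 6], [1,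 1, 2, 3], [1, 1, 3, 4], [1, 1, 2, 4], [0, 31, 0, 2, 1, 4, 5, 3, 6], [1, 1, 2, 3], [0, 33, 0, 2, 1, 4, 5, 3, 6], [0, 42, 0, 1, 3, 4, 5, 2, 6], [0, 6, 0, 1, 2, 3, 4, 5, 6], [1, 1, 2, 5], [1, 1, 3, 4], [1, 1, 2, 5], [0, 16, 0, 1, 3, 2, 5, 4, 6], [1, 1, 2, 5], [0, 22, 0, 2, 1, 3, 4, 5, 6], [1, 1, 2, 5], [0, 16, 0, 1, 2, 3, 4, 5, 6], [0, 22, 0, 2, 3, 1, 5, 4, 6], [1, 1, 3, 4], [1, 1, 3, 4], [0, 19, 0, 3, 1, 2, 4, 5, 6], [0, 26, 0, 2, 3, 1, 5, 4, 6], [0, 26, 0, 2, 1, 3, 4, 5, 6], [0, 44, 0, 1, 2, 3, 4, 5, 6], [1, 2, 3, 4], [1, 1, 2, 3], [1, 1, 3, 4], [1, 1, 2, 5], [1, 2, 3, 4], [1, 1, 2, 3], [1, 2, 3, 4], [1, 1, 2, 5], [1, 2, 3, 4], [1, 1, 2, 3], [1, 1, 3, 4], [1, 1, 3, 4], [1, 2, 3, 4], [1, 1, 2, 3], [1, 2, 3, 4], [1, 2, 3, 4], [0, 7, 0, 1, 3, 2, 5, 4, 6],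 [1, 1, 2, 4], [1, 1, 3, 4], [1, 1, 2, 4], [0, 17, 0, 1, 3, 2, 5, 4, 6], [1, 1, 2, 5], [0, 31, 0, 1, 2, 4, 5, 3, 6], [1, 1, 2, 5], [0, 19, 0, 1, 3, 2, 4, 5, 6], [1, 1, 2, 4], [1, 1, 3, 4], [1, 1, 2, 4], [2, 1, 2], [0, 27, 0, 2, 3, 1, 5, 4, 6], [2, 1, 2], [0, 45, 0, 1, 3, 2, 5, 4, 6], [0, 11, 0, 1, 2, 4, 5, 3, 6], [1, 1, 2, 3], [1, 1, 3, 4], [1, 1, 2, 4], [0, 24, 0, 1, 2, 4, 5, 3, 6], [1, 1, 2, 3], [0, 33, 0, 1, 2, 4, 5, 3, 6], [1, 1, 2, 5], [0, 26, 0, 1, 2, 3, 4, 5, 6], [1, 1, 2, 3], [1, 1, 3, 4], [1, 1, 2, 4], [2, 1, 2], [1, 1, 2, 3], [2, 1, 2], [0, 49, 0, 1, 2, 4, 5, 3, 6], [0, 1, 0, 1, 2, 4, 3, 5, 6], [0, 6, 0, 2, 5, 3, 1, 4, 6], [1, 1, 3, 5], [1, 1, 3, 5], [0, 6, 0, 2, 1, 3, 5, 4, 6], [0, 21, 0, 2, 3, 1, 4, 5, 6], [1, 1, 3, 5], [1, 1, 3, 5], [0, 2,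 0, 3, 1, 4, 2, 5, 6], [0, 7, 0, 3, 4, 2, 1, 5, 6], [0, 4, 0, 3, 1, 4, 2, 5, 6], [0, 11, 0, 2, 3, 4, 1, 5, 6], [0, 7, 0, 3, 1, 2, 4, 5, 6], [0, 23, 0, 2, 3, 1, 4, 5, 6], [0, 11, 0, 2, 1, 4, 3, 5, 6], [0, 39, 0, 1, 2, 4, 3, 5, 6], [1, 2, 3, 5], [1, 1, 2, 3], [1, 1, 3, 5], [1, 1, 3, 5], [1, 2, 3, 5], [1, 1, 2, 3], [1, 1, 3, 5], [1, 1, 3, 5], [1, 2, 3, 5], [1, 1, 2, 3], [1, 2, 3, 5], [1, 2, 3, 5], [1, 2, 3, 5], [1, 1, 2, 3], [1, 2, 3, 5], [1, 2, 3, 5], [0, 6, 0, 1, 2, 3, 5, 4, 6], [1, 1, 2, 4], [1, 1, 3, 5], [1, 1, 2, 4], [0, 16, 0, 1, 2, 3, 5, 4, 6], [0, 22, 0, 2, 3, 1, 4, 5, 6], [1, 1, 3, 5], [1, 1, 3, 5], [0, 16, 0, 1, 3, 2, 4, 5, 6], [1, 1, 2, 4], [0, 22, 0, 2, 1, 3, 5, 4, 6], [1, 1, 2, 4], [0, 19, 0, 3, 1, 2, 5, 4, 6], [0, 26, 0, 2, 3, 1, 4, 5, 6], [0,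 26, 0, 2, 1, 3, 5, 4, 6], [0, 44, 0, 1, 2, 3, 5, 4, 6], [1, 2, 3, 5], [1, 1, 2, 3], [1, 1, 3, 5], [1, 1, 2, 4], [1, 2, 3, 5], [1, 1, 2, 3], [1, 1, 3, 5], [1, 1, 3, 5], [1, 2, 3, 5], [1, 1, 2, 3], [1, 2, 3, 5], [1, 1, 2, 4], [1, 2, 3, 5], [1, 1, 2, 3], [1, 2, 3, 5], [1, 2, 3, 5], [0, 2, 0, 1, 3, 4, 2, 5, 6], [1, 1, 2, 5], [1, 1, 3, 5], [1, 1, 2, 5], [0, 16, 0, 3, 1, 2, 4, 5, 6], [1, 1, 2, 5], [1, 1, 3, 5], [1, 1, 2, 5], [0, 5, 0, 2, 3, 4, 1, 5, 6], [0, 8, 0, 3, 4, 2, 1, 5, 6], [0, 8, 0, 3, 2, 4, 1, 5, 6], [0, 12, 0, 2, 3, 4, 1, 5, 6], [0, 17, 0, 3, 1, 2, 4, 5, 6], [0, 24, 0, 2, 4, 1, 3, 5, 6], [0, 24, 0, 2, 1, 4, 3, 5, 6], [0, 40, 0, 1, 3, 4, 2, 5, 6], [0, 4, 0, 1, 3, 4, 2, 5, 6], [1, 1, 2, 3], [1, 1, 3, 5], [1, 1, 2, 5], [0, 22, 0, 1, 2, 3, 5, 4, 6],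 [1, 1, 2, 3], [1, 1, 3, 5], [1, 1, 2, 5], [0, 8, 0, 2, 3, 4, 1, 5, 6], [1, 1, 2, 3], [0, 9, 0, 2, 3, 4, 1, 5, 6], [0, 14, 0, 2, 3, 4, 1, 5, 6], [0, 31, 0, 2, 1, 4, 3, 5, 6], [1, 1, 2, 3], [0, 33, 0, 2, 1, 4, 3, 5, 6], [0, 42, 0, 1, 3, 4, 2, 5, 6], [0, 7, 0, 1, 3, 2, 4, 5, 6], [1, 1, 2, 4], [1, 1, 3, 5], [1, 1, 2, 4], [0, 19, 0, 1, 3, 2, 5, 4, 6], [1, 1, 2, 5], [1, 1, 3, 5], [1, 1, 2, 5], [0, 17, 0, 1, 3, 2, 4, 5, 6], [1, 1, 2, 4], [0, 31, 0, 1, 2, 4, 3, 5, 6], [1, 1, 2, 4], [2, 1, 2], [0, 27, 0, 2, 3, 1, 4, 5, 6], [2, 1, 2], [0, 45, 0, 1, 3, 2, 4, 5, 6], [0, 11, 0, 1, 2, 4, 3, 5, 6], [1, 1, 2, 3], [1, 1, 3, 5], [1, 1, 2, 4], [0, 26, 0, 1, 2, 3, 5, 4, 6], [1, 1, 2, 3], [1, 1, 3, 5], [1, 1, 2, 5], [0, 24, 0, 1, 2, 4, 3, 5, 6], [1, 1, 2, 3], [0, 33, 0, 1,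 2, 4, 3, 5, 6], [1, 1, 2, 4], [2, 1, 2], [1, 1, 2, 3], [2, 1, 2], [0, 49, 0, 1, 2, 4, 3, 5, 6], [0, 3, 0, 1, 2, 3, 4, 5, 6], [0, 21, 0, 1, 5, 2, 3, 4, 6], [1, 1, 3, 4], [1, 1, 3, 4], [0, 7, 0, 2, 1, 3, 5, 4, 6], [0, 30, 0, 1, 4, 2, 5, 3, 6], [1, 1, 3, 5], [1, 1, 3, 5], [0, 7, 0, 2, 1, 3, 4, 5, 6], [0, 30, 0, 1, 4, 2, 3, 5, 6], [1, 1, 3, 4], [1, 1, 3, 4], [2, 1, 3], [2, 1, 3], [0, 13, 0, 2, 1, 3, 4, 5, 6], [0, 41, 0, 1, 2, 3, 4, 5, 6], [1, 2, 3, 4], [1, 1, 2, 3], [1, 1, 3, 4], [1, 1, 3, 4], [1, 2, 3, 4], [1, 1, 2, 3], [1, 1, 3, 5], [1, 1, 3, 5], [1, 2, 3, 4], [1, 1, 2, 3], [1, 1, 3, 4], [1, 1, 3, 4], [1, 2, 3, 4], [1, 1, 2, 3], [1, 2, 3, 4], [1, 2, 3, 4], [0, 7, 0, 1, 2, 3, 5, 4, 6], [1, 1, 2, 4], [1, 1, 3, 4], [1, 1, 2, 4], [0, 17, 0, 1, 2, 3, 5, 4, 6],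 [0, 31, 0, 1, 4, 2, 5, 3, 6], [1, 1, 3, 5], [1, 1, 3, 5], [0, 19, 0, 1, 2, 3, 4, 5, 6], [1, 1, 2, 4], [1, 1, 3, 4], [1, 1, 2, 4], [2, 1, 3], [2, 1, 3], [0, 27, 0, 2, 1, 3, 5, 4, 6], [0, 45, 0, 1, 2, 3, 5, 4, 6], [1, 2, 3, 5], [1, 1, 2, 3], [1, 1, 3, 4], [1, 1, 2, 4], [1, 2, 3, 5], [1, 1, 2, 3], [1, 1, 3, 5], [1, 1, 3, 5], [1, 2, 3, 5], [1, 1, 2, 3], [1, 1, 3, 4], [1, 1, 2, 4], [1, 2, 3, 5], [1, 1, 2, 3], [1, 2, 3, 5], [1, 2, 3, 5], [0, 7, 0, 1, 2, 3, 4, 5, 6], [1, 1, 2, 5], [1, 1, 3, 4], [1, 1, 2, 5], [0, 19, 0, 1, 2, 3, 5, 4, 6], [1, 1, 2, 5], [1, 1, 3, 5], [1, 1, 2, 5], [0, 17, 0, 1, 2, 3, 4, 5, 6], [0, 31, 0, 1, 4, 2, 3, 5, 6], [1, 1, 3, 4], [1, 1, 3, 4], [2, 1, 3], [2, 1, 3], [0, 27, 0, 2, 1, 3, 4, 5, 6], [0, 45, 0, 1, 2, 3, 4, 5, 6], [1, 2, 3, 4],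 [1, 1, 2, 3], [1, 1, 3, 4], [1, 1, 2, 5], [1, 2, 3, 4], [1, 1, 2, 3], [1, 1, 3, 5], [1, 1, 2, 5], [1, 2, 3, 4], [1, 1, 2, 3], [1, 1, 3, 4], [1, 1, 3, 4], [1, 2, 3, 4], [1, 1, 2, 3], [1, 2, 3, 4], [1, 2, 3, 4], [2, 2, 3], [1, 1, 2, 4], [1, 1, 3, 4], [1, 1, 2, 4], [2, 2, 3], [1, 1, 2, 5], [1, 1, 3, 5], [1, 1, 2, 5], [2, 2, 3], [1, 1, 2, 4], [1, 1, 3, 4], [1, 1, 2, 4], [2, 1, 2], [2, 1, 3], [2, 1, 2], [2, 2, 3], [0, 13, 0, 1, 2, 3, 4, 5, 6], [1, 1, 2, 3], [1, 1, 3, 4], [1, 1, 2, 4], [0, 27, 0, 1, 2, 3, 5, 4, 6], [1, 1, 2, 3], [1, 1, 3, 5], [1, 1, 2, 5], [0, 27, 0, 1, 2, 3, 4, 5, 6], [1, 1, 2, 3], [1, 1, 3, 4], [1, 1, 2, 4], [2, 1, 2], [1, 1, 2, 3], [0, 36, 0, 1, 2, 3, 4, 5, 6], [0, 51, 0, 1, 2, 3, 4, 5, 6], [0, 1, 0, 1, 2, 3, 4, 5, 6], [0, 6, 0, 2, 5, 1,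 3, 4, 6], [0, 6, 0, 2, 1, 5, 3, 4, 6], [0, 21, 0, 2, 3, 4, 1, 5, 6], [1, 1, 4, 5], [1, 1, 4, 5], [1, 1, 4, 5], [1, 1, 4, 5], [0, 2, 0, 3, 1, 2, 4, 5, 6], [0, 7, 0, 3, 4, 1, 2, 5, 6], [0, 7, 0, 3, 1, 4, 2, 5, 6], [0, 23, 0, 2, 3, 4, 1, 5, 6], [0, 4, 0, 3, 1, 2, 4, 5, 6], [0, 11, 0, 2, 3, 1, 4, 5, 6], [0, 11, 0, 2, 1, 3, 4, 5, 6], [0, 39, 0, 1, 2, 3, 4, 5, 6], [0, 6, 0, 1, 2, 5, 3, 4, 6], [1, 1, 2, 3], [0, 16, 0, 1, 2, 5, 3, 4, 6], [0, 22, 0, 2, 3, 4, 1, 5, 6], [1, 1, 4, 5], [1, 1, 2, 3], [1, 1, 4, 5], [1, 1, 4, 5], [0, 16, 0, 1, 3, 4, 2, 5, 6], [1, 1, 2, 3], [0, 19, 0, 3, 1, 5, 2, 4, 6], [0, 26, 0, 2, 3, 4, 1, 5, 6], [0, 22, 0, 2, 1, 5, 3, 4, 6], [1, 1, 2, 3], [0, 26, 0, 2, 1, 5, 3, 4, 6], [0, 44, 0, 1, 2, 5, 3, 4, 6], [1, 2, 4, 5], [1, 1, 2, 4], [1, 2,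 4, 5], [1, 1, 2, 4], [1, 1, 4, 5], [1, 1, 4, 5], [1, 1, 4, 5], [1, 1, 4, 5], [1, 2, 4, 5], [1, 1, 2, 4], [1, 2, 4, 5], [1, 1, 2, 4], [1, 2, 4, 5], [1, 2, 4, 5], [1, 2, 4, 5], [1, 2, 4, 5], [1, 2, 4, 5], [1, 1, 2, 3], [1, 2, 4, 5], [1, 1, 2, 4], [1, 1, 4, 5], [1, 1, 2, 3], [1, 1, 4, 5], [1, 1, 4, 5], [1, 2, 4, 5], [1, 1, 2, 3], [1, 2, 4, 5], [1, 1, 2, 4], [1, 2, 4, 5], [1, 1, 2, 3], [1, 2, 4, 5], [1, 2, 4, 5], [0, 2, 0, 1, 3, 2, 4, 5, 6], [1, 1, 2, 5], [0, 16, 0, 3, 1, 4, 2, 5, 6], [1, 1, 2, 5], [1, 1, 4, 5], [1, 1, 2, 5], [1, 1, 4, 5], [1, 1, 2, 5], [0, 5, 0, 2, 3, 1, 4, 5, 6], [0, 8, 0, 3, 4, 1, 2, 5, 6], [0, 17, 0, 3, 1, 4, 2, 5, 6], [0, 24, 0, 2, 4, 3, 1, 5, 6], [0, 8, 0, 3, 2, 1, 4, 5, 6], [0, 12, 0, 2, 3, 1, 4, 5, 6], [0, 24, 0, 2, 1, 3, 4, 5, 6],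 [0, 40, 0, 1, 3, 2, 4, 5, 6], [0, 7, 0, 1, 3, 4, 2, 5, 6], [1, 1, 2, 3], [0, 19, 0, 1, 3, 5, 2, 4, 6], [1, 1, 2, 5], [1, 1, 4, 5], [1, 1, 2, 3], [1, 1, 4, 5], [1, 1, 2, 5], [0, 17, 0, 1, 3, 4, 2, 5, 6], [1, 1, 2, 3], [2, 1, 2], [0, 27, 0, 2, 3, 4, 1, 5, 6], [0, 31, 0, 1, 2, 3, 4, 5, 6], [1, 1, 2, 3], [2, 1, 2], [0, 45, 0, 1, 3, 4, 2, 5, 6], [0, 4, 0, 1, 3, 2, 4, 5, 6], [1, 1, 2, 4], [0, 22, 0, 1, 2, 5, 3, 4, 6], [1, 1, 2, 4], [1, 1, 4, 5], [1, 1, 2, 5], [1, 1, 4, 5], [1, 1, 2, 5], [0, 8, 0, 2, 3, 1, 4, 5, 6], [1, 1, 2, 4], [0, 31, 0, 2, 1, 3, 4, 5, 6], [1, 1, 2, 4], [0, 9, 0, 2, 3, 1, 4, 5, 6], [0, 14, 0, 2, 3, 1, 4, 5, 6], [0, 33, 0, 2, 1, 3, 4, 5, 6], [0, 42, 0, 1, 3, 2, 4, 5, 6], [0, 11, 0, 1, 2, 3, 4, 5, 6], [1, 1, 2, 3], [0, 26, 0, 1, 2, 5, 3, 4,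 6], [1, 1, 2, 4], [1, 1, 4, 5], [1, 1, 2, 3], [1, 1, 4, 5], [1, 1, 2, 5], [0, 24, 0, 1, 2, 3, 4, 5, 6], [1, 1, 2, 3], [2, 1, 2], [1, 1, 2, 4], [0, 33, 0, 1, 2, 3, 4, 5, 6], [1, 1, 2, 3], [2, 1, 2], [0, 49, 0, 1, 2, 3, 4, 5, 6], [1, 3, 4, 5], [1, 3, 4, 5], [1, 1, 3, 4], [1, 1, 3, 4], [1, 1, 4, 5], [1, 1, 4, 5], [1, 1, 4, 5], [1, 1, 4, 5], [1, 3, 4, 5], [1, 3, 4, 5], [1, 1, 3, 4], [1, 1, 3, 4], [1, 3, 4, 5], [1, 3, 4, 5], [1, 3, 4, 5], [1, 3, 4, 5], [1, 2, 3, 4], [1, 1, 2, 3], [1, 1, 3, 4], [1, 1, 3, 4], [1, 1, 4, 5], [1, 1, 2, 3], [1, 1, 4, 5], [1, 1, 4, 5], [1, 2, 3, 4], [1, 1, 2, 3], [1, 1, 3, 4], [1, 1, 3, 4], [1, 2, 3, 4], [1, 1, 2, 3], [1, 2, 3, 4], [1, 2, 3, 4], [1, 2, 4, 5], [1, 1, 2, 4], [1, 1, 3, 4], [1, 1, 2, 4], [1, 1, 4, 5], [1, 1, 4, 5], [1,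 1, 4, 5], [1, 1, 4, 5], [1, 2, 4, 5], [1, 1, 2, 4], [1, 1, 3, 4], [1, 1, 2, 4], [1, 2, 4, 5], [1, 2, 4, 5], [1, 2, 4, 5], [1, 2, 4, 5], [1, 2, 4, 5], [1, 1, 2, 3], [1, 1, 3, 4], [1, 1, 2, 4], [1, 1, 4, 5], [1, 1, 2, 3], [1, 1, 4, 5], [1, 1, 4, 5], [1, 2, 4, 5], [1, 1, 2, 3], [1, 1, 3, 4], [1, 1, 2, 4], [1, 2, 4, 5], [1, 1, 2, 3], [1, 2, 4, 5], [1, 2, 4, 5], [1, 3, 4, 5], [1, 1, 2, 5], [1, 1, 3, 4], [1, 1, 2, 5], [1, 1, 4, 5], [1, 1, 2, 5], [1, 1, 4, 5], [1, 1, 2, 5], [1, 3, 4, 5], [1, 3, 4, 5], [1, 1, 3, 4], [1, 1, 3, 4], [1, 3, 4, 5], [1, 3, 4, 5], [1, 3, 4, 5], [1, 3, 4, 5], [1, 2, 3, 4], [1, 1, 2, 3], [1, 1, 3, 4], [1, 1, 2, 5], [1, 1, 4, 5], [1, 1, 2, 3], [1, 1, 4, 5], [1, 1, 2, 5], [1, 2, 3, 4], [1, 1, 2, 3], [1, 1, 3, 4], [1, 1, 3, 4], [1, 2, 3,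 4], [1, 1, 2, 3], [1, 2, 3, 4], [1, 2, 3, 4], [1, 3, 4, 5], [1, 1, 2, 4], [1, 1, 3, 4], [1, 1, 2, 4], [1, 1, 4, 5], [1, 1, 2, 5], [1, 1, 4, 5], [1, 1, 2, 5], [1, 3, 4, 5], [1, 1, 2, 4], [1, 1, 3, 4], [1, 1, 2, 4], [1, 3, 4, 5], [1, 3, 4, 5], [1, 3, 4, 5], [1, 3, 4, 5], [1, 3, 4, 5], [1, 1, 2, 3], [1, 1, 3, 4], [1, 1, 2, 4], [1, 1, 4, 5], [1, 1, 2, 3], [1, 1, 4, 5], [1, 1, 2, 5], [1, 3, 4, 5], [1, 1, 2, 3], [1, 1, 3, 4], [1, 1, 2, 4], [1, 3, 4, 5], [1, 1, 2, 3], [1, 3, 4, 5], [1, 3, 4, 5], [0, 2, 0, 1, 2, 3, 4, 5, 6], [0, 16, 0, 3, 4, 1, 2, 5, 6], [1, 1, 3, 5], [1, 1, 3, 5], [1, 1, 4, 5], [1, 1, 4, 5], [1, 1, 3, 5], [1, 1, 3, 5], [0, 5, 0, 2, 1, 3, 4, 5, 6], [0, 17, 0, 3, 4, 1, 2, 5, 6], [0, 8, 0, 3, 1, 4, 2, 5, 6], [0, 24, 0, 2, 3, 4, 1, 5, 6], [0, 8,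 0, 3, 1, 2, 4, 5, 6], [0, 24, 0, 2, 3, 1, 4, 5, 6], [0, 12, 0, 2, 1, 3, 4, 5, 6], [0, 40, 0, 1, 2, 3, 4, 5, 6], [1, 2, 3, 5], [1, 1, 2, 3], [1, 1, 3, 5], [1, 1, 3, 5], [1, 1, 4, 5], [1, 1, 2, 3], [1, 1, 3, 5], [1, 1, 3, 5], [1, 2, 3, 5], [1, 1, 2, 3], [1, 2, 3, 5], [1, 2, 3, 5], [1, 2, 3, 5], [1, 1, 2, 3], [1, 2, 3, 5], [1, 2, 3, 5], [1, 2, 4, 5], [1, 1, 2, 4], [1, 1, 3, 5], [1, 1, 2, 4], [1, 1, 4, 5], [1, 1, 4, 5], [1, 1, 3, 5], [1, 1, 3, 5], [1, 2, 4, 5], [1, 1, 2, 4], [1, 2, 4, 5], [1, 1, 2, 4], [1, 2, 4, 5], [1, 2, 4, 5], [1, 2, 4, 5], [1, 2, 4, 5], [1, 2, 3, 5], [1, 1, 2, 3], [1, 1, 3, 5], [1, 1, 2, 4], [1, 1, 4, 5], [1, 1, 2, 3], [1, 1, 3, 5], [1, 1, 3, 5], [1, 2, 3, 5], [1, 1, 2, 3], [1, 2, 3, 5], [1, 1, 2, 4], [1, 2, 3, 5], [1, 1, 2, 3], [1, 2,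 3, 5], [1, 2, 3, 5], [0, 5, 0, 1, 2, 3, 4, 5, 6], [1, 1, 2, 5], [1, 1, 3, 5], [1, 1, 2, 5], [1, 1, 4, 5], [1, 1, 2, 5], [1, 1, 3, 5], [1, 1, 2, 5], [0, 15, 0, 1, 2, 3, 4, 5, 6], [0, 18, 0, 3, 4, 1, 2, 5, 6], [0, 18, 0, 3, 1, 4, 2, 5, 6], [0, 25, 0, 2, 3, 4, 1, 5, 6], [0, 18, 0, 3, 1, 2, 4, 5, 6], [0, 25, 0, 2, 3, 1, 4, 5, 6], [0, 25, 0, 2, 1, 3, 4, 5, 6], [0, 43, 0, 1, 2, 3, 4, 5, 6], [0, 8, 0, 1, 3, 4, 2, 5, 6], [1, 1, 2, 3], [1, 1, 3, 5], [1, 1, 2, 5], [1, 1, 4, 5], [1, 1, 2, 3], [1, 1, 3, 5], [1, 1, 2, 5], [0, 18, 0, 1, 3, 4, 2, 5, 6], [1, 1, 2, 3], [0, 20, 0, 2, 3, 4, 1, 5, 6], [0, 28, 0, 2, 3, 4, 1, 5, 6], [0, 32, 0, 1, 2, 3, 4, 5, 6], [1, 1, 2, 3], [0, 34, 0, 2, 1, 4, 3, 5, 6], [0, 46, 0, 1, 3, 4, 2, 5, 6], [0, 8, 0, 1, 3, 2, 4, 5, 6], [1, 1, 2,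 4], [1, 1, 3, 5], [1, 1, 2, 4], [1, 1, 4, 5], [1, 1, 2, 5], [1, 1, 3, 5], [1, 1, 2, 5], [0, 18, 0, 1, 3, 2, 4, 5, 6], [1, 1, 2, 4], [0, 32, 0, 1, 2, 4, 3, 5, 6], [1, 1, 2, 4], [0, 20, 0, 2, 3, 1, 4, 5, 6], [0, 28, 0, 2, 3, 1, 4, 5, 6], [0, 34, 0, 2, 1, 3, 4, 5, 6], [0, 46, 0, 1, 3, 2, 4, 5, 6], [0, 12, 0, 1, 2, 3, 4, 5, 6], [1, 1, 2, 3], [1, 1, 3, 5], [1, 1, 2, 4], [1, 1, 4, 5], [1, 1, 2, 3], [1, 1, 3, 5], [1, 1, 2, 5], [0, 25, 0, 1, 2, 3, 4, 5, 6], [1, 1, 2, 3], [0, 34, 0, 1, 2, 4, 3, 5, 6], [1, 1, 2, 4], [0, 34, 0, 1, 2, 3, 4, 5, 6], [1, 1, 2, 3], [2, 1, 2], [0, 50, 0, 1, 2, 3, 4, 5, 6], [0, 4, 0, 1, 2, 3, 4, 5, 6], [0, 22, 0, 1, 5, 2, 3, 4, 6], [1, 1, 3, 4], [1, 1, 3, 4], [1, 1, 4, 5], [1, 1, 4, 5], [1, 1, 3, 5], [1, 1, 3, 5], [0, 8, 0, 2, 1, 3, 4,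 5, 6], [0, 31, 0, 2, 3, 1, 4, 5, 6], [1, 1, 3, 4], [1, 1, 3, 4], [0, 9, 0, 2, 1, 3, 4, 5, 6], [0, 33, 0, 2, 3, 1, 4, 5, 6], [0, 14, 0, 2, 1, 3, 4, 5, 6], [0, 42, 0, 1, 2, 3, 4, 5, 6], [1, 2, 3, 4], [1, 1, 2, 3], [1, 1, 3, 4], [1, 1, 3, 4], [1, 1, 4, 5], [1, 1, 2, 3], [1, 1, 3, 5], [1, 1, 3, 5], [1, 2, 3, 4], [1, 1, 2, 3], [1, 1, 3, 4], [1, 1, 3, 4], [1, 2, 3, 4], [1, 1, 2, 3], [1, 2, 3, 4], [1, 2, 3, 4], [1, 2, 4, 5], [1, 1, 2, 4], [1, 1, 3, 4], [1, 1, 2, 4], [1, 1, 4, 5], [1, 1, 4, 5], [1, 1, 3, 5], [1, 1, 3, 5], [1, 2, 4, 5], [1, 1, 2, 4], [1, 1, 3, 4], [1, 1, 2, 4], [1, 2, 4, 5], [1, 2, 4, 5], [1, 2, 4, 5], [1, 2, 4, 5], [1, 2, 3, 5], [1, 1, 2, 3], [1, 1, 3, 4], [1, 1, 2, 4], [1, 1, 4, 5], [1, 1, 2, 3], [1, 1, 3, 5], [1, 1, 3, 5], [1, 2, 3, 5], [1,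 1, 2, 3], [1, 1, 3, 4], [1, 1, 2, 4], [1, 2, 3, 5], [1, 1, 2, 3], [1, 2, 3, 5], [1, 2, 3, 5], [0, 8, 0, 1, 2, 3, 4, 5, 6], [1, 1, 2, 5], [1, 1, 3, 4], [1, 1, 2, 5], [1, 1, 4, 5], [1, 1, 2, 5], [1, 1, 3, 5], [1, 1, 2, 5], [0, 18, 0, 1, 2, 3, 4, 5, 6], [0, 32, 0, 1, 4, 2, 3, 5, 6], [1, 1, 3, 4], [1, 1, 3, 4], [0, 20, 0, 2, 1, 3, 4, 5, 6], [0, 34, 0, 2, 3, 1, 4, 5, 6], [0, 28, 0, 2, 1, 3, 4, 5, 6], [0, 46, 0, 1, 2, 3, 4, 5, 6], [1, 2, 3, 4], [1, 1, 2, 3], [1, 1, 3, 4], [1, 1, 2, 5], [1, 1, 4, 5], [1, 1, 2, 3], [1, 1, 3, 5], [1, 1, 2, 5], [1, 2, 3, 4], [1, 1, 2, 3], [1, 1, 3, 4], [1, 1, 3, 4], [1, 2, 3, 4], [1, 1, 2, 3], [1, 2, 3, 4], [1, 2, 3, 4], [0, 9, 0, 1, 2, 3, 4, 5, 6], [1, 1, 2, 4], [1, 1, 3, 4], [1, 1, 2, 4], [1, 1, 4, 5], [1, 1, 2, 5], [1, 1, 3,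 5], [1, 1, 2, 5], [0, 20, 0, 1, 2, 3, 4, 5, 6], [1, 1, 2, 4], [1, 1, 3, 4], [1, 1, 2, 4], [0, 29, 0, 1, 2, 3, 4, 5, 6], [0, 35, 0, 2, 3, 1, 4, 5, 6], [0, 35, 0, 2, 1, 3, 4, 5, 6], [0, 47, 0, 1, 2, 3, 4, 5, 6], [0, 14, 0, 1, 2, 3, 4, 5, 6], [1, 1, 2, 3], [1, 1, 3, 4], [1, 1, 2, 4], [1, 1, 4, 5], [1, 1, 2, 3], [1, 1, 3, 5], [1, 1, 2, 5], [0, 28, 0, 1, 2, 3, 4, 5, 6], [1, 1, 2, 3], [1, 1, 3, 4], [1, 1, 2, 4], [0, 35, 0, 1, 2, 3, 4, 5, 6], [1, 1, 2, 3], [0, 37, 0, 1, 2, 3, 4, 5, 6], [0, 52, 0, 1, 2, 3, 4, 5, 6]]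

theorem cls7 : allB (2 ^ 10) (fun c => entryOK 7 pidx7 bases7 c (ents7.getD c [])) = true := by
  decide +kernel

theorem hpk7 : allB 7 (fun a => allB 7 (fun b =>
    or (not (and (Nat.ble 1 a) (and (Nat.ble (Nat.add a 1) b) (Nat.ble (Nat.add b 2) 7))))
      (and (Nat.ble (Nat.add (pidx7 a b) 1) 10) (and (Nat.beq (gd pa7 (pidx7 a b)) a)
        (Nat.beq (gd pb7 (pidx7 a b)) b))))) = true := by decide +kernel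

theorem rep_card7 {L : Type u} [Lattice L] [Finite L] (hcard : Nat.card L = 7) : Representable L := by
  refine rep_of_classify (N := 10) pidx7 (gd pa7) (gd pb7) bases7 ents7 (by decide) (hp_of_check hpk7) cls7 ?_ hcard
  · intro i hi e he
    have hi' : i < 53 := hi
    interval_cases i
    · exact rep_u59 e he
    · exact rep_b e he
    · exact rep_u23 e he
    · exact rep_v1 e he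
    · exact rep_u61 e he
    · exact rep_u60 e he
    · exact rep_u57 e he
    · exact rep_L7 e he
    · exact rep_gd e he
    · exact rep_u46 e he
    · exact rep_v2 e he
    · exact rep_g e he
    · exact rep_u47 e he
    · exact rep_v3 e he
    · exact rep_u54 e he
    · exact rep_u48 e he
    · exact rep_u58 e he
    · exact rep_u24 e he
    · exact rep_u55 e he
    · exact rep_v4 e he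
    · exact rep_u27 e he
    · exact rep_v5 e he
    · exact rep_u56 e he
    · exact rep_u25 e he
    · exact rep_h e he
    · exact rep_v6 e he
    · exact rep_u28 e he
    · exact rep_u29 e he
    · exact rep_u49 e he
    · exact rep_u30 e he
    · exact rep_u26 e he
    · exact rep_u31 e he
    · exact rep_u50 e he
    · exact rep_u32 e he
    · exact rep_u33 e he
    · exact rep_u39 e he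
    · exact rep_u34 e he
    · exact rep_u40 e he
    · exact rep_u51 e he
    · exact rep_v7 e he
    · exact rep_u35 e he
    · exact rep_v8 e he
    · exact rep_u52 e he
    · exact rep_u36 e he
    · exact rep_v9 e he
    · exact rep_u37 e he
    · exact rep_u41 e he
    · exact rep_u42 e he
    · exact rep_u38 e he
    · exact rep_u43 e he
    · exact rep_u44 e he
    · exact rep_u45 e he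
    · exact rep_u53 e he


/-- Every lattice with at most seven elements is representable. -/
theorem rep_le7 {L : Type u} [Lattice L] [Finite L] [Nonempty L] (h : Nat.card L ≤ 7) :
    Representable L := by
  have hpos : 0 < Nat.card L := Nat.card_pos
  obtain h1 | h2 | h3 | h4 | h5 | h6 | h7 : Nat.card L = 1 ∨ Nat.card L = 2 ∨ Nat.card L = 3 ∨
      Nat.card L = 4 ∨ Nat.card L = 5 ∨ Nat.card L = 6 ∨ Nat.card L = 7 := by omega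
  · have : Subsingleton L := (Nat.card_eq_one_iff_unique.1 h1).1
    exact representable_of_subsingleton
  · exact rep_card2 h2
  · exact rep_card3 h3
  · exact rep_card4 h4
  · exact rep_card5 h5
  · exact rep_card6 h6
  · exact rep_card7 h7

end Vale.Agent.P183L.Small
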